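import Vale.Agent.N266.Count

/-! P266: a criterion for normality; descent of flatness. -/

namespace Vale.Agent.N266X

open IsLocalRing Vale.Agent.P266 TensorProduct

theorem dom_of_principal {R : Type*} [CommRing R] [IsLocalRing R] [IsNoetherianRing R]
    [IsReduced R] (h : (maximalIdeal R).IsPrincipal) : IsDomain R := by
  classical
  obtain ⟨π, hπ⟩ := h
  have hπ' : maximalIdeal R = Ideal.span {π} := hπ
  have key : ∀ x : R, x ≠ 0 → ∃ (n : ℕ) (u : R), IsUnit u ∧ x = u * π ^ n := fun x hx => by
    have h1 : ∃ n, x ∉ maximalIdeal R ^ n := by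
      by_contra hc
      refine hx (Ideal.mem_bot.1 ?_)
      rw [← Ideal.iInf_pow_eq_bot_of_isLocalRing _ (maximalIdeal.isMaximal R).ne_top]
      exact Ideal.mem_iInf.2 fun n => not_not.1 fun h => hc ⟨n, h⟩
    have h2 := Nat.find_spec h1
    obtain ⟨n, hn⟩ := Nat.exists_eq_succ_of_ne_zero (n := Nat.find h1) fun e => by simp [e] at h2
    have h3 := not_not.1 (Nat.find_min h1 (hn ▸ n.lt_succ_self))
    rw [hn, hπ', Ideal.span_singleton_pow, Ideal.mem_span_singleton'] at h2
    rw [hπ', Ideal.span_singleton_pow, Ideal.mem_span_singleton'] at h3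
    obtain ⟨u, rfl⟩ := h3
    refine ⟨n, u, not_not.1 fun hu => h2 ?_, rfl⟩
    obtain ⟨v, rfl⟩ := Ideal.mem_span_singleton'.1 (hπ' ▸ (mem_maximalIdeal u).2 hu)
    exact ⟨v, by rw [Nat.succ_eq_add_one]; ring⟩
  have : NoZeroDivisors R := ⟨fun {x y} hxy => by
    by_contra hc
    rw [not_or] at hc
    obtain ⟨n, u, hu, rfl⟩ := key x hc.1
    obtain ⟨m, v, hv, rfl⟩ := key y hc.2
    have h1 : π ^ (n + m) = 0 := (hu.mul hv).mul_right_eq_zero.1 (by rw [← hxy]; ring)
    have h2 : π = 0 := IsNilpotent.eq_zero ⟨_, h1⟩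
    rcases Nat.eq_zero_or_pos n with rfl | hn
    · exact hc.2 (by rw [← zero_add m, h1, mul_zero])
    · exact hc.1 (by rw [h2, zero_pow hn.ne', mul_zero])⟩
  exact NoZeroDivisors.to_isDomain _

theorem dvd_loc {T : Type*} [CommRing T] (P : Ideal T) [P.IsPrime] {h a : T} :
    algebraMap T (Localization.AtPrime P) h ∣ algebraMap T _ a ↔ ∃ s ∉ P, h ∣ s * a := by
  rw [← Ideal.mem_span_singleton, ← Set.image_singleton, ← Ideal.map_span,
    IsLocalization.algebraMap_mem_map_algebraMap_iff P.primeCompl]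
  simp only [Ideal.mem_span_singleton]
  rfl

/-- Serre's criterion: a reduced local ring whose primes of depth one are locally principal is a
normal domain. -/
theorem serre {T : Type*} [CommRing T] [IsLocalRing T] [IsNoetherianRing T] [IsReduced T]
    (H : ∀ (h a : T) (P : Ideal T) [P.IsPrime], h ∈ nonZeroDivisors T →
      (∀ z, z ∈ P ↔ h ∣ z * a) → (maximalIdeal (Localization.AtPrime P)).IsPrincipal) :
    IsDomain T ∧ IsIntegrallyClosed T := by
  have key : ∀ h ∈ nonZeroDivisors T, ∀ a : T, (∀ (P : Ideal T) [P.IsPrime],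
      (maximalIdeal (Localization.AtPrime P)).IsPrincipal → ∃ s ∉ P, h ∣ s * a) → h ∣ a := by
    intro h hh a ha
    by_contra hc
    obtain ⟨P, hP, hle⟩ := exists_le_isAssociatedPrime_of_isNoetherianRing T
      (Ideal.Quotient.mk (Ideal.span {h}) a) (mt (Ideal.Quotient.eq_zero_iff_dvd h a).1 hc)
    obtain ⟨hp, y, hy⟩ := isAssociatedPrime_iff.1 hP
    obtain ⟨y, rfl⟩ := Ideal.Quotient.mk_surjective y
    have hcol : ∀ z r : T, r ∈ (⊥ : Submodule T (T ⧸ Ideal.span {h})).colon
        {Ideal.Quotient.mk (Ideal.span {h}) z} ↔ h ∣ r * z := fun z r => by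
      rw [Submodule.mem_colon_singleton, Submodule.mem_bot, Algebra.smul_def,
        Ideal.Quotient.algebraMap_eq, ← map_mul, Ideal.Quotient.eq_zero_iff_dvd]
    obtain ⟨s, hs, h1⟩ := ha P (H h y P hh fun z => by rw [hy, hcol])
    exact hs (hle ((hcol a s).2 h1))
  have : NoZeroDivisors T := ⟨fun {x y} hxy => by
    let I : Ideal T := LinearMap.ker (LinearMap.toSpanSingleton T T x)
    have hI : ∀ i, i ∈ I ↔ i * x = 0 := fun _ => Iff.rfl
    have hI' : ∀ (J : Ideal T) (j : T), j ∈ Module.annihilator T J ↔ ∀ i ∈ J, j * i = 0 :=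
      fun J j => Submodule.mem_annihilator
    obtain ⟨h, h1, hh⟩ : ∃ h ∈ I ⊔ Module.annihilator T I, h ∈ nonZeroDivisors T := by
      refine Set.not_disjoint_iff.1 fun hd => ?_
      obtain ⟨z, hz, h0⟩ := SetLike.exists_of_lt
        (Ideal.bot_lt_annihilator_of_disjoint_nonZeroDivisors hd)
      rw [hI'] at hz
      exact h0 (IsNilpotent.eq_zero ⟨2, (sq z).trans (hz z (Ideal.mem_sup_right
        ((hI' _ _).2 fun i hi => hz i (Ideal.mem_sup_left hi))))⟩)
    obtain ⟨i, hi, j, hj, e⟩ := Submodule.mem_sup.1 h1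
    rw [hI'] at hj
    obtain ⟨c, hc⟩ := key h hh i fun P _ hP => by
      have := dom_of_principal hP
      have h2 := congrArg (algebraMap T (Localization.AtPrime P)) (hj i hi)
      rw [map_mul, map_zero, mul_eq_zero] at h2
      rw [← dvd_loc]
      rcases h2 with h2 | h2
      · rw [← e, map_add, h2, add_zero]
      · rw [h2]
        exact dvd_zero _
    have hp := mem_nonZeroDivisors_iff_left.1 hh
    have h3 : (1 - c) * c = 0 := hp _ (hp _ (by
      linear_combination hj i hi - (h - i - h * c) * hc - i * e))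
    rcases isUnit_or_isUnit_one_sub_self c with h4 | h4
    · refine Or.inl (hp _ ?_)
      rw [← sub_eq_zero.1 (h4.mul_left_eq_zero.1 h3), mul_one] at hc
      exact hc ▸ (hI i).1 hi
    · refine Or.inr (hp _ ?_)
      rw [h4.mul_right_eq_zero.1 h3, mul_zero] at hc
      rw [← e, hc, zero_add]
      exact hj y ((hI y).2 (by rw [mul_comm, hxy]))⟩
  have : IsDomain T := NoZeroDivisors.to_isDomain _
  refine ⟨this, IsIntegrallyClosed.of_localization
    {p | (maximalIdeal (Localization.AtPrime p.asIdeal)).IsPrincipal}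
    (fun p hp => ?_) (le_bot_iff.1 fun x hx => ?_)⟩
  · have : IsPrincipalIdealRing (Localization.AtPrime p.asIdeal) :=
      ((tfae_of_isNoetherianRing_of_isLocalRing_of_isDomain _).out 4 0).1 hp
    infer_instance
  · obtain ⟨a, h, hh, rfl⟩ := IsFractionRing.div_surjective (A := T) x
    have h3 := IsFractionRing.to_map_ne_zero_of_mem_nonZeroDivisors (K := FractionRing T) hh
    obtain ⟨c, rfl⟩ := key h hh a fun P _ hP => by
      obtain ⟨b, s, hs, e⟩ := Algebra.mem_iInf.1 (Algebra.mem_iInf.1 hx ⟨P, ‹_›⟩) hP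
      rw [IsFractionRing.mk'_eq_div, div_eq_div_iff h3
        (IsFractionRing.to_map_ne_zero_of_mem_nonZeroDivisors
          (P.primeCompl_le_nonZeroDivisors hs)), ← map_mul, ← map_mul] at e
      exact ⟨s, hs, b, by rw [mul_comm s, IsFractionRing.injective T _ e, mul_comm]⟩
    exact ⟨c, by rw [map_mul, mul_div_cancel_left₀ _ h3]; rfl⟩

/-- Flatness descends along a faithfully flat map on the target. -/
theorem flat_desc (R S T : Type) [CommRing R] [CommRing S] [CommRing T] [Algebra R S] [Algebra S T]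
    [Algebra R T] [IsScalarTower R S T] [Module.FaithfullyFlat S T] [Module.Flat R T] :
    Module.Flat R S := by
  rw [Module.Flat.iff_lTensor_preserves_injective_linearMap]
  intro M N _ _ _ _ f hf
  change Function.Injective (f.baseChange S)
  rw [← Module.FaithfullyFlat.lTensor_injective_iff_injective S T]
  have h : (AlgebraTensorModule.cancelBaseChange R S S T N).toLinearMap ∘ₗ
      (f.baseChange S).lTensor T = AlgebraTensorModule.lTensor S T f ∘ₗ
        (AlgebraTensorModule.cancelBaseChange R S S T M).toLinearMap := by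
    ext
    simp
  refine Function.Injective.of_comp (f := AlgebraTensorModule.cancelBaseChange R S S T N) ?_
  have h1 : Function.Injective (AlgebraTensorModule.lTensor S T f) :=
    Module.Flat.lTensor_preserves_injective_linearMap f hf
  exact (congrArg (fun g : _ →ₗ[S] _ => Function.Injective g) h).mpr
    (h1.comp (LinearEquiv.injective _))

end Vale.Agent.N266X
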