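import Vale.Agent.N266X.Nrm
import Vale.Agent.P282A71.Kit
import Vale.Agent.P282A14.Jet
import Vale.Agent.P282A74.Cpl
import Vale.Agent.P282A7.Rad
import Vale.Agent.P277Z.Luf.Ufd

/-! P266: germs of holomorphic functions: flatness, derivatives, finiteness. -/

open Filter Topology IsLocalRing MvPolynomial
open Vale.Agent.P298.H941 Vale.Agent.P282A71 Vale.Agent.P277.H29

noncomputable section

namespace Vale.Agent.N266X

theorem flat_of_jet {R S : Type} [CommRing R] [CommRing S] [Algebra ℂ R] [Algebra ℂ S]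
    [IsNoetherianRing R] [IsNoetherianRing S] [IsLocalRing S] {f : R →ₐ[ℂ] S} {m : Ideal R}
    (h : JetIso f m (maximalIdeal S)) : (f : R →+* S).Flat := by
  set n := maximalIdeal S
  let g : ∀ k : ℕ, (R ⧸ m ^ k) →ₐ[ℂ] S ⧸ n ^ k := fun k =>
    Ideal.quotientMapₐ (n ^ k) f fun x hx => (h.mem k x).2 hx
  have g1 : ∀ k x, g k (Ideal.Quotient.mk _ x) = Ideal.Quotient.mk _ (f x) := fun _ _ => rfl
  have g2 : ∀ k, Function.Bijective (g k) := by
    refine fun k => ⟨(injective_iff_map_eq_zero _).2 fun x hx => ?_, fun s => ?_⟩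
    · obtain ⟨x, rfl⟩ := Ideal.Quotient.mk_surjective x
      rw [g1, Ideal.Quotient.eq_zero_iff_mem] at hx
      exact Ideal.Quotient.eq_zero_iff_mem.2 ((h.mem k x).1 hx)
    · obtain ⟨s, rfl⟩ := Ideal.Quotient.mk_surjective s
      obtain ⟨x, hx⟩ := h.dense k s
      exact ⟨Ideal.Quotient.mk _ x, (Ideal.Quotient.eq.2 hx).symm⟩
  have g3 : ∀ {k l : ℕ} (h : k ≤ l) (x : R ⧸ m ^ l),
      Ideal.Quotient.factor (Ideal.pow_le_pow_right h) (g l x) =
        g k (Ideal.Quotient.factor (Ideal.pow_le_pow_right h) x) := by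
    intro k l h x
    obtain ⟨x, rfl⟩ := Ideal.Quotient.mk_surjective x
    rfl
  let e : ∀ k : ℕ, (R ⧸ m ^ k) ≃ₐ[ℂ] S ⧸ n ^ k := fun k => AlgEquiv.ofBijective (g k) (g2 k)
  obtain ⟨F, hF⟩ := exists_lift m n g g3
  obtain ⟨G, hG⟩ := exists_lift n m (fun k => (e k).symm.toAlgHom) fun {k l} h x => by
    obtain ⟨x, rfl⟩ := (e l).surjective x
    refine (congrArg _ ((e l).symm_apply_apply x)).trans ((e k).eq_symm_apply.2 ?_)
    exact (g3 h x).symm
  have hb : Function.Bijective F := Function.bijective_iff_has_inverse.2 ⟨G,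
    fun x => AdicCompletion.ext_evalₐ fun k =>
      (hG k _).trans ((congrArg (e k).symm (hF k x)).trans ((e k).symm_apply_apply _)),
    fun x => AdicCompletion.ext_evalₐ fun k =>
      (hF k _).trans ((congrArg (g k) (hG k x)).trans ((e k).apply_symm_apply _))⟩
  have h1 : (algebraMap S (AdicCompletion n S)).comp (f : R →+* S) =
      (F : _ →+* _).comp (algebraMap R (AdicCompletion m R)) :=
    RingHom.ext fun x => AdicCompletion.ext_evalₐ fun k => by
      change _ = AdicCompletion.evalₐ n k (F (algebraMap R _ x))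
      rw [hF, AlgHom.commutes]
      exact AlgHom.commutes _ _
  have h2 : ((algebraMap S (AdicCompletion n S)).comp (f : R →+* S)).Flat := by
    rw [h1]
    exact RingHom.Flat.comp (RingHom.flat_algebraMap_iff.2 inferInstance)
      (RingHom.Flat.of_bijective hb)
  let _ := (f : R →+* S).toAlgebra
  have : Module.Flat R (AdicCompletion n S) := RingHom.flat_algebraMap_iff.1 h2
  have : Module.FaithfullyFlat S (AdicCompletion n S) :=
    Module.FaithfullyFlat.of_flat_of_isLocalHom
  exact flat_desc R S (AdicCompletion n S)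

variable {N : ℕ}

instance (N : ℕ) : Algebra (MvPolynomial (Fin N) ℂ) (ON N) := (pl N : _ →+* ON N).toAlgebra

theorem alg_eq (p : MvPolynomial (Fin N) ℂ) : algebraMap _ (ON N) p = pl N p := rfl

instance (N : ℕ) : Module.Flat (MvPolynomial (Fin N) ℂ) (ON N) :=
  flat_of_jet (P282A14.jet N).2

theorem ana_d {f : (Fin N → ℂ) → ℂ} (hf : AnalyticAt ℂ f 0) (i : Fin N) :
    AnalyticAt ℂ (fun z => fderiv ℂ f z (Pi.single i 1)) 0 :=
  ((ContinuousLinearMap.apply ℂ ℂ (Pi.single i 1 : Fin N → ℂ)).analyticAt _).comp hf.fderiv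

/-- the derivative of a germ along a coordinate -/
def pdf (i : Fin N) (a : ON N) : ON N := mk _ (ana_d (exists_rep a).choose_spec.choose i)

theorem pdf_mk (i : Fin N) {f : (Fin N → ℂ) → ℂ} (hf : AnalyticAt ℂ f 0) :
    pdf i (mk f hf) = mk _ (ana_d hf i) :=
  mk_congr _ _ (((mk_eq_iff _ _).1 (exists_rep (mk f hf)).choose_spec.choose_spec).fderiv.mono
    fun _ h => by rw [h])

/-- the derivative along a coordinate, as a derivation -/
def pd (i : Fin N) : Derivation ℂ (ON N) (ON N) :=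
  Derivation.mk'
    { toFun := pdf i
      map_add' := fun a b => by
        obtain ⟨f, hf, rfl⟩ := exists_rep a
        obtain ⟨g, hg, rfl⟩ := exists_rep b
        rw [mk_add, pdf_mk, pdf_mk, pdf_mk, mk_add]
        refine mk_congr _ _ ?_
        filter_upwards [hf.eventually_analyticAt, hg.eventually_analyticAt] with z h1 h2
        rw [fderiv_fun_add h1.differentiableAt h2.differentiableAt]
        rfl
      map_smul' := fun c a => by
        obtain ⟨f, hf, rfl⟩ := exists_rep a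
        rw [smul_mk, pdf_mk, pdf_mk, smul_mk]
        refine mk_congr _ _ ?_
        filter_upwards [hf.eventually_analyticAt] with z h1
        rw [fderiv_const_mul h1.differentiableAt]
        rfl }
    fun a b => by
      obtain ⟨f, hf, rfl⟩ := exists_rep a
      obtain ⟨g, hg, rfl⟩ := exists_rep b
      change pdf i _ = _ * pdf i _ + _ * pdf i _
      rw [mk_mul, pdf_mk, pdf_mk, pdf_mk, mk_mul, mk_mul, mk_add]
      refine mk_congr _ _ ?_
      filter_upwards [hf.eventually_analyticAt, hg.eventually_analyticAt] with z h1 h2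
      rw [fderiv_fun_mul h1.differentiableAt h2.differentiableAt]
      rfl

theorem pd_mk (i : Fin N) {f : (Fin N → ℂ) → ℂ} (hf : AnalyticAt ℂ f 0) :
    pd i (mk f hf) = mk _ (ana_d hf i) := pdf_mk i hf

theorem pd_zc (i j : Fin N) : pd i (zc j) = (Pi.single j 1 : Fin N → ON N) i := by
  rw [zc, pd_mk]
  have h : ∀ z : Fin N → ℂ, fderiv ℂ (fun z : Fin N → ℂ => z j) z (Pi.single i 1) =
      (Pi.single i 1 : Fin N → ℂ) j := fun z =>
    congrArg (· (Pi.single i 1))
      (ContinuousLinearMap.proj (R := ℂ) (φ := fun _ : Fin N => ℂ) j).hasFDerivAt.fderiv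
  by_cases e : i = j
  · subst e
    rw [Pi.single_eq_same]
    exact mk_congr _ _ (.of_forall fun z => by rw [h, Pi.single_eq_same]; rfl)
  · rw [Pi.single_eq_of_ne e]
    exact mk_congr _ _ (.of_forall fun z => by rw [h, Pi.single_eq_of_ne' e]; rfl)

theorem pd_pl (i : Fin N) (p : MvPolynomial (Fin N) ℂ) : pd i (pl N p) = pl N (pderiv i p) := by
  rw [pl, P266.H114.Lip.der_aeval_mv]
  simp [pd_zc, Pi.single_apply]

theorem dim_ON (N : ℕ) : ringKrullDim (ON N) = N := by
  refine le_antisymm ((ringKrullDim_le_spanFinrank_maximalIdeal _).trans ?_) ?_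
  · rw [P282A14.max_eq, Nat.cast_le]
    refine (Submodule.spanFinrank_span_le_ncard_of_finite (Set.finite_range _)).trans ?_
    simpa using Set.ncard_image_le (s := Set.univ) (f := zc (N := N))
  induction N with
  | zero => exact ringKrullDim_nonneg_of_nontrivial
  | succ k ih =>
    refine le_trans ?_ (ringKrullDim_succ_le_of_surjective (res k : _ →+* ON k)
      (fun a => ⟨_, res_sec k a⟩) (mem_nonZeroDivisors_of_ne_zero fun e => ?_) (res_co k))
    · rw [Nat.cast_succ]
      gcongr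
    · have h := pd_zc (0 : Fin (k + 1)) 0
      rw [show zc 0 = 0 from e, map_zero, Pi.single_eq_same] at h
      exact zero_ne_one h

theorem div_monic (n : ℕ) {P : Polynomial (ON n)} (hP : P.Monic) (G : ON (n + 1)) :
    ∃ (v : ON (n + 1)) (R : Polynomial (ON n)),
      G = v * P.eval₂ (sec n : ON n →+* ON (n + 1)) (co n) +
        R.eval₂ (sec n : ON n →+* ON (n + 1)) (co n) := by
  have hc : AnalyticAt ℂ (fun p : ℂ × (Fin n → ℂ) => (Fin.cons p.1 p.2 : Fin (n + 1) → ℂ)) 0 :=
    cons_analytic analyticAt_fst analyticAt_snd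
  have hs : AnalyticAt ℂ (fun z : Fin (n + 1) → ℂ => (z 0, tl n z)) 0 :=
    (proj_analytic 0 0).prod (tl_analytic n 0)
  obtain ⟨f, hf, rfl⟩ := exists_rep G
  obtain ⟨v, R, h, -⟩ := (P277Z.Oka.wal (Fin n → ℂ)).div 0 P hP
    (mk (fun p => f (Fin.cons p.1 p.2)) (hf.comp_of_eq hc (inc_zero n)))
  let σ : O (ℂ × (Fin n → ℂ)) →+* ON (n + 1) :=
    pull (fun z : Fin (n + 1) → ℂ => (z 0, tl n z)) hs rfl
  have h2 : σ.comp (sndH (Fin n → ℂ) : ON n →+* _) = (sec n : ON n →+* ON (n + 1)) :=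
    RingHom.ext fun a => by
      obtain ⟨f, hf, rfl⟩ := exists_rep a
      rfl
  have h3 : σ (fstG (Fin n → ℂ)) = co n := rfl
  have h1 : ∀ Q, σ (P277Z.Oka.ev (Fin n → ℂ) 0 Q) =
      Q.eval₂ (sec n : ON n →+* ON (n + 1)) (co n) := fun Q => by
    rw [P277Z.Oka.ev, Polynomial.coe_eval₂RingHom, Polynomial.hom_eval₂, h2, map_zero, add_zero, h3]
  refine ⟨σ v, R, ?_⟩
  rw [← h1, ← h1, ← map_mul, ← map_add, ← h]
  exact mk_congr _ _ (.of_forall fun z => congrArg f (cons_tl n z).symm)

theorem ana_sub (s k : ℕ) :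
    AnalyticAt ℂ (fun (z : Fin (s + k) → ℂ) (i : Fin s) => z (i.addNat k)) 0 :=
  analyticAt_pi_iff.2 fun _ => ana_proj _ _

/-- germs which depend only on the last `s` coordinates -/
def secs (s k : ℕ) : ON s →ₐ[ℂ] ON (s + k) := pull _ (ana_sub s k) rfl

theorem secs_succ (s k : ℕ) : (secs s (k + 1) : ON s →+* ON (s + k + 1)) =
    (sec (s + k) : ON (s + k) →+* ON (s + k + 1)).comp (secs s k : ON s →+* ON (s + k)) :=
  RingHom.ext fun a => by
    obtain ⟨f, hf, rfl⟩ := exists_rep a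
    rfl

theorem gen_aux {T : Type} [CommRing T] (R : Subring T) {s : ℕ} (ψ : ON s →+* T)
    (h1 : ∀ a, ψ a ∈ R) (k : ℕ) : ∀ φ : ON (s + k) →+* T,
    φ.comp (secs s k : ON s →+* ON (s + k)) = ψ →
    (∀ i, φ (zc i) ∈ R ∧ ψ.IsIntegralElem (φ (zc i))) → ∀ g, φ g ∈ R := by
  induction k with
  | zero =>
    intro φ h _ g
    obtain ⟨f, hf, rfl⟩ := exists_rep g
    exact RingHom.congr_fun h (mk f hf) ▸ h1 (mk f hf)
  | succ k ih =>
    intro φ h h2 g
    rw [secs_succ, ← RingHom.comp_assoc] at h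
    have h3 := ih _ h fun i => h2 i.succ
    obtain ⟨P, hP, h4⟩ := (h2 0).2
    obtain ⟨v, Q, rfl⟩ := div_monic (s + k) (hP.map (secs s k : ON s →+* ON (s + k))) g
    rw [map_add, map_mul, Polynomial.hom_eval₂, Polynomial.eval₂_map, h,
      show Polynomial.eval₂ ψ (φ (co (s + k))) P = 0 from h4, mul_zero, zero_add,
      Polynomial.hom_eval₂, Polynomial.eval₂_eq_sum_range]
    exact sum_mem fun i _ => mul_mem (h3 _) (pow_mem (h2 0).1 _)

end Vale.Agent.N266X
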