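import Vale.Agent.N266X.Main

/-! P266: the complex analytic form of the counterexample (not a hand-in). -/

namespace Vale.Agent.N266X

/-- The Lipman-Zariski conjecture for complex analytic sets is false. -/
theorem analytic_form :
    -- (1) the form for germs of analytic sets is false
    (¬ ∀ (N : ℕ) (X : Set (Fin N → ℂ)) (x : Fin N → ℂ), x ∈ X → AnalyticSetAt X x →
      Module.Free (Loc X x) (Derivation ℂ (Loc X x) (Loc X x)) → SubmanifoldAt X x) ∧
    -- (2) singular normal analytic sets with a global frame of holomorphic vector fields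
    (∀ d n : ℕ, 2 ≤ d → 1 ≤ n →
      ∃ (N : ℕ) (X : Set (Fin N → ℂ)) (v : Fin d → (Fin N → ℂ) → Fin N → ℂ),
        (∃ I : Ideal (MvPolynomial (Fin N) ℂ), I.IsPrime ∧ X = MvPolynomial.zeroLocus ℂ I) ∧
        (∀ i y, AnalyticAt ℂ (v i) y) ∧
        (∀ x ∈ X, AnalyticSetAt X x ∧ IsDomain (Loc X x) ∧ IsIntegrallyClosed (Loc X x) ∧
          ringKrullDim (Loc X x) = d ∧
          ∃ b : Module.Basis (Fin d) (Loc X x) (Derivation ℂ (Loc X x) (Loc X x)),
            ∀ i (f : Hol x), ∃ g : Hol x, (∀ y, g.1 y = fderiv ℂ f.1 y (v i y)) ∧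
              b i (germ X f) = germ X g) ∧
        (∃ x ∈ X, ¬ SubmanifoldAt X x) ∧
        (d = 2 → {x ∈ X | ¬ SubmanifoldAt X x}.ncard = n)) ∧
    -- (3) smooth points are the points with regular local ring
    ∀ (N : ℕ) (X : Set (Fin N → ℂ)) (x : Fin N → ℂ), x ∈ X → AnalyticSetAt X x →
      (SubmanifoldAt X x ↔ IsRegularLocalRing (Loc X x)) := by
  refine ⟨fun h => ?_, fun d n hd hn => global_main hd (by omega),
    fun N X x => smooth_iff'⟩
  · obtain ⟨N, X, _, -, -, h1, ⟨x, hx, h2⟩, -⟩ := global_main le_rfl one_ne_zero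
    obtain ⟨h3, -, -, -, b, -⟩ := h1 x hx
    exact h2 (h N X x hx h3 (.of_basis b))

end Vale.Agent.N266X
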