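import Mathlib

/-! P266: local rings and smooth points of subsets of `ℂ ^ N`. -/

open Filter Topology

namespace Vale.Agent.N266X

variable {N : ℕ}

/-- The functions on `ℂ ^ N` which are holomorphic near `x`. -/
def Hol (x : Fin N → ℂ) : Subalgebra ℂ ((Fin N → ℂ) → ℂ) where
  carrier := {f | AnalyticAt ℂ f x}
  mul_mem' := fun hf hg => hf.mul hg
  add_mem' := fun hf hg => hf.add hg
  algebraMap_mem' := fun _ => analyticAt_const

/-- The holomorphic functions which vanish on `X` near `x`. -/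
def van (X : Set (Fin N → ℂ)) (x : Fin N → ℂ) : Ideal (Hol x) where
  carrier := {f | ∀ᶠ y in 𝓝[X] x, f.1 y = 0}
  add_mem' := fun {a b} (ha : ∀ᶠ y in 𝓝[X] x, a.1 y = 0) (hb : ∀ᶠ y in 𝓝[X] x, b.1 y = 0) =>
    show ∀ᶠ y in 𝓝[X] x, a.1 y + b.1 y = 0 from
      (ha.and hb).mono fun _ h => by rw [h.1, h.2, add_zero]
  zero_mem' := show ∀ᶠ _ in 𝓝[X] x, (0 : ℂ) = 0 from .of_forall fun _ => rfl
  smul_mem' := fun c a (ha : ∀ᶠ y in 𝓝[X] x, a.1 y = 0) =>
    show ∀ᶠ y in 𝓝[X] x, c.1 y * a.1 y = 0 from ha.mono fun _ h => by rw [h, mul_zero]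

/-- The local ring `𝒪_{X, x}`: germs at `x` of holomorphic functions on `X`. -/
def Loc (X : Set (Fin N → ℂ)) (x : Fin N → ℂ) : Type := Hol x ⧸ van X x

noncomputable instance (X : Set (Fin N → ℂ)) (x : Fin N → ℂ) : CommRing (Loc X x) :=
  inferInstanceAs (CommRing (Hol x ⧸ van X x))

noncomputable instance (X : Set (Fin N → ℂ)) (x : Fin N → ℂ) : Algebra ℂ (Loc X x) :=
  inferInstanceAs (Algebra ℂ (Hol x ⧸ van X x))

/-- The germ on `X` of a holomorphic function: its class in `𝒪_{X, x}`. -/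
def germ (X : Set (Fin N → ℂ)) {x : Fin N → ℂ} (f : Hol x) : Loc X x :=
  Ideal.Quotient.mk (van X x) f

/-- Near `x` the set `X` is the set of common zeros of finitely many holomorphic functions. -/
def AnalyticSetAt (X : Set (Fin N → ℂ)) (x : Fin N → ℂ) : Prop :=
  ∃ (k : ℕ) (F : (Fin N → ℂ) → Fin k → ℂ), AnalyticAt ℂ F x ∧ ∀ᶠ y in 𝓝 x, y ∈ X ↔ F y = 0

/-- Near `x` the set `X` is a complex submanifold: the zero set of a holomorphic submersion. -/
def SubmanifoldAt (X : Set (Fin N → ℂ)) (x : Fin N → ℂ) : Prop :=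
  ∃ (k : ℕ) (F : (Fin N → ℂ) → Fin k → ℂ), AnalyticAt ℂ F x ∧
    Function.Surjective (fderiv ℂ F x) ∧ ∀ᶠ y in 𝓝 x, y ∈ X ↔ F y = 0

end Vale.Agent.N266X
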