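import Vale.Agent.N266.Count
import Vale.Agent.P271.H879.RegDom

/-! P266: singular closed points in every dimension. -/

open IsLocalRing Polynomial Vale.Agent.P266

namespace Vale.Agent.N266X

theorem reg_of_succ {A : Type} [CommRing A] [IsDomain A] (m : Ideal A) [m.IsPrime]
    (h : IsRegularLocalRing (Localization.AtPrime (m.comap (evalRingHom 0)))) :
    IsRegularLocalRing (Localization.AtPrime m) := by
  set M := m.comap (evalRingHom 0)
  let f := algebraMap A[X] (Localization.AtPrime M)
  let φ := Localization.localRingHom M m (evalRingHom 0) rfl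
  have hφ : Function.Surjective φ := fun y => by
    obtain ⟨a, s, rfl⟩ := IsLocalization.exists_mk'_eq m.primeCompl y
    refine ⟨IsLocalization.mk' _ (C a)
      (⟨C s, fun h => s.2 (by simpa [M] using h)⟩ : M.primeCompl), ?_⟩
    rw [Localization.localRingHom_mk']
    simp
  have hk : Ideal.span {f X} = RingHom.ker φ := by
    refine le_antisymm ((Ideal.span_singleton_le_iff_mem _).2 ?_) fun y hy => ?_
    · rw [RingHom.mem_ker, Localization.localRingHom_to_map]
      simp
    · obtain ⟨a, s, rfl⟩ := IsLocalization.exists_mk'_eq M.primeCompl y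
      rw [RingHom.mem_ker, Localization.localRingHom_mk', IsLocalization.mk'_eq_zero_iff] at hy
      obtain ⟨t, ht⟩ := hy
      have h1 : X ∣ a := X_dvd_iff.2 ((coeff_zero_eq_eval_zero a).trans
        ((mul_eq_zero.1 ht).resolve_left fun e => t.2 (e ▸ m.zero_mem)))
      rw [IsLocalization.mk'_eq_mul_mk'_one]
      exact Ideal.mul_mem_right _ _ (Ideal.mem_span_singleton.2 (_root_.map_dvd f h1))
  have h1 : f X ∉ maximalIdeal _ ^ 2 := fun h1 => by
    rw [← Localization.AtPrime.map_eq_maximalIdeal, ← Ideal.map_pow,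
      IsLocalization.algebraMap_mem_map_algebraMap_iff M.primeCompl] at h1
    obtain ⟨s, hs, h1⟩ := h1
    have h2 : ∀ a ∈ M * M, (derivative a).eval 0 ∈ m := fun a ha =>
      Submodule.mul_induction_on ha (fun a ha b hb => by
        rw [derivative_mul, eval_add, eval_mul, eval_mul]
        exact add_mem (m.mul_mem_left _ hb) (m.mul_mem_right _ ha))
        fun a b ha hb => by rw [derivative_add, eval_add]; exact add_mem ha hb
    have h3 := h2 _ (sq M ▸ h1)
    rw [derivative_mul] at h3
    exact hs (by simpa [M] using h3)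
  have := (P271.H879.Reg.regular_quotient ((IsLocalization.AtPrime.to_map_mem_maximal_iff _ M X).2
    (by simp [M])) h1).1
  exact .of_ringEquiv (R := Localization.AtPrime M ⧸ Ideal.span {f X})
    ((Ideal.quotEquivOfEq hk).trans (RingHom.quotientKerEquivOfSurjective hφ))

theorem all_dim {n : ℕ} (hn : n ≠ 0) (d : ℕ) (hd : 2 ≤ d) :
    ∃ (A : Type) (_ : CommRing A) (_ : IsDomain A) (_ : Algebra ℂ A),
      Algebra.FiniteType ℂ A ∧ IsIntegrallyClosed A ∧ ringKrullDim A = d ∧
      Module.Free A (Derivation ℂ A A) ∧ Module.finrank A (Derivation ℂ A A) = d ∧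
      (∃ p : PrimeSpectrum A, p.asIdeal.IsMaximal ∧
        ¬ IsRegularLocalRing (Localization.AtPrime p.asIdeal)) ∧
      (d = 2 → {p : PrimeSpectrum A | p.asIdeal.IsMaximal ∧
        ¬ IsRegularLocalRing (Localization.AtPrime p.asIdeal)}.ncard = n) := by
  induction d, hd using Nat.le_induction with
  | base =>
    obtain ⟨A, _, _, _, h1, h2, h3, h4, h5, h6⟩ := N266.count hn
    have : IsNoetherianRing A := Algebra.FiniteType.isNoetherianRing ℂ A
    obtain ⟨p, hp⟩ := Set.nonempty_of_ncard_ne_zero (h6 ▸ hn)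
    exact ⟨A, _, ‹_›, _, h1, h2, h3, h4, h5, ⟨p, N266.max_of_sing h3.le _ hp, hp⟩, fun _ =>
      (congrArg _ (Set.ext fun p => and_iff_right_of_imp (N266.max_of_sing h3.le _))).trans h6⟩
  | succ d hd ih =>
    obtain ⟨A, _, _, _, h1, h2, h3, h4, h5, ⟨p, h6, h7⟩, -⟩ := ih
    have : IsNoetherianRing A := Algebra.FiniteType.isNoetherianRing ℂ A
    have := H114.Lip.finite_derivation ℂ A
    obtain ⟨g1, g2⟩ := H114.free_derivation_polynomial ℂ A
    refine ⟨A[X], inferInstance, inferInstance, inferInstance,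
      Algebra.FiniteType.trans (S := A) h1 inferInstance, inferInstance, ?_, g1, h5 ▸ g2,
      ⟨⟨p.asIdeal.comap (evalRingHom 0), inferInstance⟩, Ideal.comap_isMaximal_of_surjective _
        (eval_surjective 0), mt (reg_of_succ _) h7⟩, fun e => by omega⟩
    rw [Polynomial.ringKrullDim_of_isNoetherianRing, h3, Nat.cast_succ]

end Vale.Agent.N266X
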