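import Vale.Agent.N266X.Sm

/-! P266: the analytic local ring of a normal affine variety with free tangent sheaf. -/

open Filter Topology IsLocalRing Module MvPolynomial
open Vale.Agent.P298.H941 Vale.Agent.P282A71 Vale.Agent.P266

noncomputable section

namespace Vale.Agent.N266X

theorem der_basis {k A T : Type*} [Field k] [CommRing A] [CommRing T] [Algebra k A] [Algebra k T]
    [Algebra A T] [IsScalarTower k A T] [Algebra.FiniteType k A] [Module.Flat A T] {d : ℕ}
    (b : Basis (Fin d) A (Derivation k A A)) (E : Fin d → Derivation k T T)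
    (hE : ∀ i a, E i (algebraMap A T a) = algebraMap A T (b i a))
    (H : ∀ E : Derivation k T T, (∀ a, E (algebraMap A T a) = 0) → E = 0) :
    ∃ c : Basis (Fin d) T (Derivation k T T), ∀ i, c i = E i := by
  classical
  have hN : IsNoetherianRing A := Algebra.FiniteType.isNoetherianRing k A
  have hli : LinearIndependent T E := by
    obtain ⟨s, hs⟩ := Algebra.FiniteType.out (R := k) (A := A)
    let u : Derivation k A A →ₗ[A] s → A := ⟨⟨fun D j => D j, fun _ _ => rfl⟩, fun _ _ => rfl⟩
    let w : Derivation k T T →ₗ[T] s → T :=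
      ⟨⟨fun D j => D (algebraMap A T j), fun _ _ => rfl⟩, fun _ _ => rfl⟩
    have h1 := (Module.Flat.linearIndependent_one_tmul (S := T) (b.linearIndependent.map' u
      (LinearMap.ker_eq_bot'.2 fun D hD => Derivation.ext_of_adjoin_eq_top _ hs
        fun x hx => congrFun hD ⟨x, hx⟩))).map'
      (TensorProduct.piScalarRight A T T s).toLinearMap (LinearEquiv.ker _)
    refine LinearIndependent.of_comp w ((congrArg (LinearIndependent T ·) ?_).mp h1)
    ext i j
    simp [w, u, hE, Algebra.smul_def]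
  have hsp : ⊤ ≤ Submodule.span T (Set.range E) := by
    intro F _
    have : Algebra.FinitePresentation k A := Algebra.FinitePresentation.of_finiteType.1 ‹_›
    obtain ⟨n, h₂, h₃, h⟩ := Module.Flat.exists_factorization_of_finitePresentation
      ((F.compAlgebraMap A).liftKaehlerDifferential)
    let φ : Fin n → Derivation k A A := fun j =>
      (Finsupp.lapply j ∘ₗ h₂).compDer (KaehlerDifferential.D k A)
    have h1 : F = ∑ i, (∑ j, algebraMap A T (b.repr (φ j) i) * h₃ (Finsupp.single j 1)) • E i := by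
      rw [← sub_eq_zero]
      refine H _ fun a => ?_
      have h2 : F (algebraMap A T a) = h₃ (h₂ (KaehlerDifferential.D k A a)) := by
        have h3 := LinearMap.congr_fun h (KaehlerDifferential.D k A a)
        rwa [Derivation.liftKaehlerDifferential_comp_D] at h3
      have h4 : h₂ (KaehlerDifferential.D k A a) = ∑ j, φ j a • Finsupp.single j 1 := by
        ext j
        simp [φ]
      have h5 : ∀ j, φ j a = ∑ i, b.repr (φ j) i * b i a := fun j => by
        conv_lhs => rw [← b.sum_repr (φ j)]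
        exact H114.Lip.der_sum_smul_apply _ _ _ a
      rw [Derivation.sub_apply, H114.Lip.der_sum_smul_apply, h2, h4, map_sum, sub_eq_zero]
      simp only [hE, map_smul, h5, Algebra.smul_def, map_sum, map_mul, Finset.sum_mul]
      rw [Finset.sum_comm]
      exact Finset.sum_congr rfl fun i _ => Finset.sum_congr rfl fun j _ => by ring
    rw [h1]
    exact Submodule.sum_mem _ fun i _ => Submodule.smul_mem _ _ (Submodule.subset_span ⟨i, rfl⟩)
  exact ⟨Basis.mk hli hsp, Basis.mk_apply hli hsp⟩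

theorem ev0_pl {N : ℕ} (p : MvPolynomial (Fin N) ℂ) : ev0 _ (pl N p) = eval 0 p := by
  rw [pl_eq, ev0_mk]

/-- the maximal ideals of an affine algebra and of its analytic local ring -/
theorem max_aux {N : ℕ} {A T : Type} [CommRing A] [CommRing T] [IsLocalRing T] [Algebra A T]
    {π : MvPolynomial (Fin N) ℂ →+* A} (hπ : Function.Surjective π) {m : Ideal A}
    (hm : ∀ p, π p ∈ m ↔ eval 0 p = 0) {ρ : ON N →+* T} (hρ : Function.Surjective ρ)
    (hA : ∀ p, algebraMap A T (π p) = ρ (pl N p)) :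
    (maximalIdeal T).comap (algebraMap A T) = m ∧ m.map (algebraMap A T) = maximalIdeal T ∧
      ∀ t : T, ∃ a : A, t - algebraMap A T a ∈ maximalIdeal T := by
  have hmax : ∀ a, ρ a ∈ maximalIdeal T ↔ ev0 _ a = 0 := fun a => by
    have := IsLocalHom.of_surjective ρ hρ
    rw [IsLocalRing.mem_maximalIdeal, mem_nonunits_iff, isUnit_map_iff, P298.H941.isUnit_iff,
      not_not]
  have h1 : (maximalIdeal T).comap (algebraMap A T) = m := Ideal.ext fun a => by
    obtain ⟨p, rfl⟩ := hπ a
    rw [Ideal.mem_comap, hA, hmax, hm, ev0_pl]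
  refine ⟨h1, le_antisymm (Ideal.map_le_iff_le_comap.2 h1.ge) ?_, fun t => ?_⟩
  · rw [← map_maximalIdeal_of_surjective ρ hρ, P282A14.max_eq, Ideal.map_span, Ideal.span_le]
    rintro _ ⟨_, ⟨i, rfl⟩, rfl⟩
    rw [← pl_X, ← hA]
    exact Ideal.mem_map_of_mem _ ((hm _).2 (eval_X i))
  · obtain ⟨a, rfl⟩ := hρ t
    refine ⟨π (C (ev0 _ a)), ?_⟩
    rw [hA, ← map_sub, hmax, map_sub, ev0_pl, eval_C, sub_self]

section

variable {N : ℕ} {A T : Type} [CommRing A] [Algebra ℂ A] [CommRing T] [Algebra ℂ T]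
  {π : MvPolynomial (Fin N) ℂ →ₐ[ℂ] A} (hπ : Function.Surjective π) {ρ : ON N →ₐ[ℂ] T}
  (hρ : Function.Surjective ρ) (hk : RingHom.ker ρ = ex (RingHom.ker π))

include hπ hρ hk

theorem alg_aux :
    ∃ _ : Algebra A T, (∀ p, algebraMap A T (π p) = ρ (pl N p)) ∧ Module.Flat A T := by
  let P := MvPolynomial (Fin N) ℂ
  let I := RingHom.ker π
  let J : Ideal (ON N) := I.map (algebraMap P _)
  let e := Ideal.quotientKerAlgEquivOfSurjective hπ
  let e' : (ON N ⧸ J) ≃ₐ[ℂ] T :=
    (Ideal.quotientEquivAlgOfEq ℂ hk.symm).trans (Ideal.quotientKerAlgEquivOfSurjective hρ)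
  have h1 : Module.Flat (P ⧸ I) (ON N ⧸ J) := Module.Flat.of_linearEquiv
    (Algebra.TensorProduct.quotIdealMapEquivQuotTensor (ON N) I).toLinearEquiv
  exact ⟨((e' : ON N ⧸ J →+* T).comp ((algebraMap (P ⧸ I) _).comp e.symm)).toAlgebra, fun p =>
    congrArg (fun x => e' (algebraMap (P ⧸ I) _ x)) (e.symm_apply_apply (Ideal.Quotient.mk I p)),
    RingHom.Flat.comp (RingHom.Flat.comp (RingHom.Flat.of_bijective e.symm.bijective)
      (RingHom.flat_algebraMap_iff.2 h1)) (RingHom.Flat.of_bijective e'.bijective)⟩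

variable [Algebra A T] (hA : ∀ p, algebraMap A T (π p) = ρ (pl N p))

include hA

theorem rad_aux (p : Ideal A) (hp : p.IsPrime) (h0 : ∀ x, π x ∈ p → eval 0 x = 0) :
    (p.map (algebraMap A T)).IsRadical := by
  have h1 : p.map (algebraMap A T) = (ex (p.comap π)).map (ρ : ON N →+* T) := by
    refine le_antisymm (Ideal.map_le_iff_le_comap.2 fun a ha => ?_)
      (Ideal.map_le_iff_le_comap.2 (Ideal.map_le_iff_le_comap.2 fun x hx => ?_))
    · obtain ⟨x, rfl⟩ := hπ a
      rw [Ideal.mem_comap, hA]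
      exact Ideal.mem_map_of_mem (ρ : ON N →+* T) (Ideal.mem_map_of_mem (pl N) ha)
    · have h2 := Ideal.mem_map_of_mem (algebraMap A T) (Ideal.mem_comap.1 hx)
      rwa [hA] at h2
  have h2 : RingHom.ker (ρ : ON N →+* T) ≤ ex (p.comap π) :=
    hk.le.trans (Ideal.map_mono (Ideal.ker_le_comap π))
  rw [h1, ← Ideal.radical_eq_iff,
    ← Ideal.map_radical_of_surjective (f := (ρ : ON N →+* T)) hρ h2,
    (ex_radical7 P282A14.jet _ (Ideal.comap_isPrime π p) h0).radical]

theorem der_aux (D : Derivation ℂ A A) (q : Fin N → MvPolynomial (Fin N) ℂ)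
    (hq : ∀ j, π (q j) = D (π (X j))) : ∃ E : Derivation ℂ T T,
      (∀ a, E (algebraMap A T a) = algebraMap A T (D a)) ∧
        ∀ a, E (ρ a) = ρ (∑ j, pl N (q j) * pd j a) := by
  let E : Derivation ℂ (ON N) (ON N) := ∑ j, pl N (q j) • pd j
  have g1 : ∀ p, ρ (E (pl _ p)) = algebraMap A T (D (π p)) := fun p => by
    have g2 : π = aeval fun i => π (X i) := aeval_unique π
    conv_rhs => rw [g2, H114.Lip.der_aeval_mv, ← g2]
    rw [H114.Lip.der_sum_smul_apply, map_sum, map_sum]
    refine Finset.sum_congr rfl fun j _ => ?_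
    rw [pd_pl, map_mul, map_mul, ← hq, hA, hA, mul_comm]
  have g2 : ∀ x, ρ x = 0 → ρ (E x) = 0 := fun x hx => by
    replace hx : x ∈ ex (RingHom.ker π) := hk.le hx
    induction hx using Submodule.span_induction with
    | mem x hx =>
      obtain ⟨p, hp, rfl⟩ := hx
      exact (g1 p).trans (by rw [RingHom.mem_ker.1 hp, map_zero, map_zero])
    | zero => simp
    | add x y _ _ hx hy => rw [map_add, map_add, hx, hy, add_zero]
    | smul c x hx' hx =>
      rw [smul_eq_mul, E.leibniz, smul_eq_mul, smul_eq_mul, map_add, map_mul, map_mul, hx,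
        RingHom.mem_ker.1 (hk.ge hx'), mul_zero, zero_mul, add_zero]
  refine ⟨Derivation.liftOfSurjective hρ g2, fun a => ?_, fun a => ?_⟩
  · obtain ⟨p, rfl⟩ := hπ a
    rw [hA, ← g1]
    exact Derivation.liftOfSurjective_apply _ g2 _
  · rw [← H114.Lip.der_sum_smul_apply]
    exact Derivation.liftOfSurjective_apply _ g2 _

end

theorem secs_pl (s k : ℕ) (p : MvPolynomial (Fin s) ℂ) :
    secs s k (pl s p) = pl (s + k) (rename (fun i : Fin s => i.addNat k) p) := by
  have h : (secs s k).comp (pl s) = (pl (s + k)).comp (rename fun i : Fin s => i.addNat k) :=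
    MvPolynomial.algHom_ext fun i => by
      simp only [AlgHom.comp_apply, rename_X, pl_X]
      rfl
  exact AlgHom.congr_fun h p

theorem local_main {s k d : ℕ} {A T : Type} [CommRing A] [IsDomain A] [IsIntegrallyClosed A]
    [Algebra ℂ A] [CommRing T] [IsLocalRing T] [Algebra ℂ T] (hd : ringKrullDim A = d)
    (π : MvPolynomial (Fin (s + k)) ℂ →ₐ[ℂ] A) (hπ : Function.Surjective π)
    (g : MvPolynomial (Fin s) ℂ →ₐ[ℂ] A) (hg : Function.Injective g) (hg' : g.Finite)
    (hgπ : ∀ p, g p = π (rename (fun i : Fin s => i.addNat k) p))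
    (m : Ideal A) [m.IsMaximal] (hm : ∀ p, π p ∈ m ↔ eval 0 p = 0)
    (ρ : ON (s + k) →ₐ[ℂ] T) (hρ : Function.Surjective ρ)
    (hk : RingHom.ker ρ = ex (RingHom.ker π)) (b : Basis (Fin d) A (Derivation ℂ A A))
    (q : Fin d → Fin (s + k) → MvPolynomial (Fin (s + k)) ℂ)
    (hq : ∀ i j, π (q i j) = b i (π (X j))) :
    IsDomain T ∧ IsIntegrallyClosed T ∧ ringKrullDim T = d ∧
      (IsRegularLocalRing T ↔ IsRegularLocalRing (Localization.AtPrime m)) ∧
      ∃ c : Basis (Fin d) T (Derivation ℂ T T),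
        ∀ i a, c i (ρ a) = ρ (∑ j, pl _ (q i j) * pd j a) := by
  have : Algebra.FiniteType ℂ A := Algebra.FiniteType.of_surjective π hπ
  have : IsNoetherianRing A := Algebra.FiniteType.isNoetherianRing ℂ A
  have : IsNoetherianRing T := isNoetherianRing_of_surjective _ _ (ρ : ON (s + k) →+* T) hρ
  obtain ⟨_, hA, _⟩ := alg_aux hπ hρ hk
  have : IsScalarTower ℂ A T := IsScalarTower.of_algebraMap_eq fun c => by
    rw [← π.commutes, hA, AlgHom.commutes, AlgHom.commutes]
  obtain ⟨h1, h2, h3⟩ := max_aux (π := (π : MvPolynomial (Fin (s + k)) ℂ →+* A)) hπ hm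
    (ρ := (ρ : ON (s + k) →+* T)) hρ hA
  obtain ⟨h4, h5⟩ := N266.reg_iff' m h1 h2
  let S := MvPolynomial (Fin s) ℂ
  let _ := (g : S →+* A).toAlgebra
  have : Module.Finite S A := hg'
  have : FaithfulSMul S A := (faithfulSMul_iff_algebraMap_injective _ _).2 hg
  let _ : Algebra (ON s) T := ((ρ : ON (s + k) →+* T).comp (secs s k : ON s →+* _)).toAlgebra
  let _ : Algebra S T := ((algebraMap A T).comp (g : S →+* A)).toAlgebra
  have : IsScalarTower S A T := IsScalarTower.of_algebraMap_eq fun _ => rfl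
  have : IsScalarTower S (ON s) T := IsScalarTower.of_algebraMap_eq fun p =>
    (congrArg (algebraMap A T) (hgπ p)).trans ((hA _).trans (congrArg ρ (secs_pl s k p).symm))
  obtain ⟨g1, g2, g3⟩ := max_aux (π := RingHom.id _) (m := m.under S) Function.surjective_id
    (fun p => (show g p ∈ m ↔ _ by rw [hgπ, hm, eval_rename]; rfl))
    (ρ := RingHom.id (ON s)) Function.surjective_id fun _ => rfl
  have h6 : (s : WithBot ℕ∞) ≤ m.height := by
    rw [← dim_ON, (N266.reg_iff' _ g1 g2).2,
      Ideal.height_eq_height_add_of_liesOver_of_hasGoingDown (m.under S) m]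
    exact_mod_cast le_self_add
  have h7 : (d : WithBot ℕ∞) ≤ s := by
    simpa [hd, S] using CE.ringKrullDim_le_of_isIntegral S A
  have h8 : (m.height : WithBot ℕ∞) = d :=
    le_antisymm (Ideal.height_le_ringKrullDim_of_isPrime.trans hd.le) (h7.trans h6)
  have gen : Algebra.adjoin (ON s) (Set.range (algebraMap A T)) = ⊤ := by
    refine top_le_iff.1 fun t _ => ?_
    obtain ⟨a, rfl⟩ := hρ t
    refine gen_aux (Algebra.adjoin (ON s) (Set.range (algebraMap A T))).toSubring
      (algebraMap (ON s) T) (fun a => Subalgebra.algebraMap_mem _ a) k (ρ : ON (s + k) →+* T) rfl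
      (fun i => ?_) a
    rw [← pl_X, RingHom.coe_coe, ← hA]
    exact ⟨Algebra.subset_adjoin ⟨_, rfl⟩,
      (Algebra.IsIntegral.isIntegral (R := S) _).algebraMap.tower_top⟩
  have h9 := normal_of S m h1 h2 (g2 ▸ g3)
    (fun p hp hpm => rad_aux hπ hρ hk hA p hp fun x hx => (hm x).1 (hpm hx)) gen
  choose E hE hE' using fun i => der_aux hπ hρ hk hA (b i) (q i) (hq i)
  obtain ⟨c, hc⟩ := der_basis b E hE (N266.der_uniq m h2 h3)
  exact ⟨h9.1, h9.2, h5.trans h8, h4, c, fun i a => by rw [hc, hE']⟩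

end Vale.Agent.N266X
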