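import Vale.Agent.N266X.Tr
import Vale.Agent.N266X.Dim

/-! P266: the analytic set defined by a normal affine variety with free tangent sheaf. -/

open Filter Topology IsLocalRing Module MvPolynomial
open Vale.Agent.P298.H941 Vale.Agent.P282A71 Vale.Agent.P266

noncomputable section

namespace Vale.Agent.N266X

theorem exists_pres (A : Type) [CommRing A] [Nontrivial A] [Algebra ℂ A] [Algebra.FiniteType ℂ A] :
    ∃ (s k : ℕ) (π : MvPolynomial (Fin (s + k)) ℂ →ₐ[ℂ] A) (g : MvPolynomial (Fin s) ℂ →ₐ[ℂ] A),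
      Function.Surjective π ∧ Function.Injective g ∧ g.Finite ∧
        ∀ i, g (X i) = π (X (i.addNat k)) := by
  obtain ⟨s, g, h1, h2⟩ := exists_finite_inj_algHom_of_fg ℂ A
  obtain ⟨k, f, hf⟩ := Algebra.FiniteType.iff_quotient_mvPolynomial''.1 ‹Algebra.FiniteType ℂ A›
  let π : MvPolynomial (Fin (s + k)) ℂ →ₐ[ℂ] A := aeval fun j =>
    if h : j.1 < k then f (X ⟨j, h⟩) else g (X ⟨j - k, by omega⟩)
  have h3 : π.comp (rename fun i : Fin k => ⟨i, by omega⟩) = f :=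
    MvPolynomial.algHom_ext fun i => by simp [π]
  refine ⟨s, k, π, g, fun a => ?_, h1, h2, fun i => by simp [π]⟩
  obtain ⟨p, rfl⟩ := hf a
  exact ⟨_, AlgHom.congr_fun h3 p⟩

variable {N : ℕ}

/-- translation of polynomials -/
def sh (x : Fin N → ℂ) : MvPolynomial (Fin N) ℂ →ₐ[ℂ] MvPolynomial (Fin N) ℂ :=
  aeval fun i => X i - C (x i)

theorem eval_sh (x z : Fin N → ℂ) (p : MvPolynomial (Fin N) ℂ) :
    eval z (sh x p) = eval (z - x) p :=
  AlgHom.congr_fun (show (aeval z).comp (sh x) = aeval (z - x) from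
    MvPolynomial.algHom_ext fun i => by simp [sh]) p

theorem sh_sh (x : Fin N → ℂ) (p : MvPolynomial (Fin N) ℂ) : sh x (sh (-x) p) = p :=
  MvPolynomial.funext fun z => by rw [eval_sh, eval_sh, sub_neg_eq_add, sub_add_cancel]

theorem an_zero (I : Ideal (MvPolynomial (Fin N) ℂ)) (x : Fin N → ℂ) :
    AnalyticSetAt (zeroLocus ℂ I) x := by
  obtain ⟨n, s, rfl⟩ := Submodule.fg_iff_exists_fin_generating_family.1 (IsNoetherian.noetherian I)
  refine ⟨n, fun y j => eval y (s j), analyticAt_pi_iff.2 fun j => ana_eval _ _,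
    .of_forall fun y => ?_⟩
  rw [Ideal.submodule_span_eq, zeroLocus_span, Set.mem_ofPred, Set.forall_mem_range, funext_iff]
  rfl

theorem point_main {s k d : ℕ} {A : Type} [CommRing A] [IsDomain A] [IsIntegrallyClosed A]
    [Algebra ℂ A] (hd : ringKrullDim A = d)
    (π : MvPolynomial (Fin (s + k)) ℂ →ₐ[ℂ] A) (hπ : Function.Surjective π)
    (g : MvPolynomial (Fin s) ℂ →ₐ[ℂ] A) (hg : Function.Injective g) (hg' : g.Finite)
    (hgπ : ∀ i, g (X i) = π (X (i.addNat k))) (b : Basis (Fin d) A (Derivation ℂ A A))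
    (q : Fin d → Fin (s + k) → MvPolynomial (Fin (s + k)) ℂ)
    (hq : ∀ i j, π (q i j) = b i (π (X j))) {Y : Set (Fin (s + k) → ℂ)}
    (hY : Y = zeroLocus ℂ (RingHom.ker π)) {x : Fin (s + k) → ℂ}
    (m : Ideal A) [m.IsMaximal] (hm : ∀ p, π p ∈ m ↔ eval x p = 0) :
    (IsDomain (Loc Y x) ∧ IsIntegrallyClosed (Loc Y x) ∧ ringKrullDim (Loc Y x) = d ∧
      ∃ c : Basis (Fin d) (Loc Y x) (Derivation ℂ (Loc Y x) (Loc Y x)),
        ∀ i (f : Hol x), ∃ g : Hol x, (∀ y, g.1 y = fderiv ℂ f.1 y fun j => eval y (q i j)) ∧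
          c i (germ Y f) = germ Y g) ∧
      (SubmanifoldAt Y x ↔ IsRegularLocalRing (Localization.AtPrime m)) := by
  have hx : x ∈ Y := hY.ge fun p hp => (hm p).1 (RingHom.mem_ker.1 hp ▸ m.zero_mem)
  have hs : ∀ {n} (x : Fin n → ℂ), Function.Surjective (sh x) := fun x p => ⟨_, sh_sh x p⟩
  have hl : locus (RingHom.ker (π.comp (sh x))) = (x + ·) ⁻¹' Y := by
    refine Set.ext fun z => ⟨fun h => hY.ge fun p hp => ?_, fun h p hp => ?_⟩
    · have h1 := h (sh (-x) p) (by rwa [RingHom.mem_ker, AlgHom.comp_apply, sh_sh])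
      rwa [eval_sh, sub_neg_eq_add, add_comm z] at h1
    · have h1 : eval (x + z) (sh x p) = 0 := hY.le h _ hp
      rwa [eval_sh, add_sub_cancel_left] at h1
  have hm' : ∀ p, π.comp (sh x) p ∈ m ↔ eval 0 p = 0 := fun p => by
    rw [AlgHom.comp_apply, hm, eval_sh, sub_self]
  have hk : RingHom.ker (rho Y x) = ex (RingHom.ker (π.comp (sh x))) := by
    refine le_antisymm (fun a ha => ?_) (Ideal.map_le_iff_le_comap.2 fun p hp => ?_)
    · obtain ⟨f, hf, rfl⟩ := exists_rep a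
      exact rad7 P282A14.jet _ _ (RingHom.ker_isPrime (π.comp (sh x)))
        (fun p hp => (hm' p).1 (RingHom.mem_ker.1 hp ▸ m.zero_mem)) f hf
        (hl ▸ (rho_zero_iff f hf).1 ha)
    · rw [Ideal.mem_comap, RingHom.mem_ker, pl_eq, rho_zero_iff, ← hl]
      exact eventually_mem_nhdsWithin.mono fun z hz => hz p hp
  have := loc_local hx
  obtain ⟨h1, h2, h3, h4, c, h5⟩ := local_main hd
    (π.comp (sh x)) (hπ.comp (hs x)) (g.comp (sh fun i => x (i.addNat k)))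
    (hg.comp (Function.LeftInverse.injective (g := sh (-fun i => x (i.addNat k))) fun p => by
      simpa using sh_sh (-fun i : Fin s => x (i.addNat k)) p))
    (AlgHom.Finite.comp hg' (AlgHom.Finite.of_surjective _ (hs _)))
    (AlgHom.congr_fun (φ₂ := (π.comp (sh x)).comp (rename fun i : Fin s => i.addNat k))
      (MvPolynomial.algHom_ext fun i => by simp [sh, hgπ]))
    m hm' (rho Y x) rho_surj hk b (fun i j => sh (-x) (q i j)) fun i j => by
      rw [AlgHom.comp_apply, sh_sh, hq]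
      simp [sh]
  refine ⟨⟨h1, h2, h3, c, fun i f => ?_⟩, (smooth_iff' hx (hY ▸ an_zero _ x)).trans h4⟩
  refine ⟨tr x ⟨_, Finset.analyticAt_fun_sum Finset.univ fun j _ =>
    (ana_eval (sh (-x) (q i j)) 0).mul (ana_d (ana_tr f.2) j)⟩, fun y => ?_, ?_⟩
  · change ∑ j, eval (y - x) (sh (-x) (q i j)) *
      fderiv ℂ (fun z => f.1 (x + z)) (y - x) (Pi.single j 1) = _
    rw [pi_eq_sum_univ' fun j => eval y (q i j), map_sum]
    simp [eval_sh, fderiv_comp_add_left]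
  · rw [← rho_mk, h5]
    simp only [pl_eq, pd_mk, mk_mul, mk_sum]
    rfl

theorem global_main {d n : ℕ} (hd : 2 ≤ d) (hn : n ≠ 0) :
    ∃ (N : ℕ) (Y : Set (Fin N → ℂ)) (v : Fin d → (Fin N → ℂ) → Fin N → ℂ),
      (∃ I : Ideal (MvPolynomial (Fin N) ℂ), I.IsPrime ∧ Y = zeroLocus ℂ I) ∧
      (∀ i y, AnalyticAt ℂ (v i) y) ∧
      (∀ x ∈ Y, AnalyticSetAt Y x ∧ IsDomain (Loc Y x) ∧ IsIntegrallyClosed (Loc Y x) ∧
        ringKrullDim (Loc Y x) = d ∧
        ∃ b : Basis (Fin d) (Loc Y x) (Derivation ℂ (Loc Y x) (Loc Y x)),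
          ∀ i (f : Hol x), ∃ g : Hol x, (∀ y, g.1 y = fderiv ℂ f.1 y (v i y)) ∧
            b i (germ Y f) = germ Y g) ∧
      (∃ x ∈ Y, ¬ SubmanifoldAt Y x) ∧
      (d = 2 → {x ∈ Y | ¬ SubmanifoldAt Y x}.ncard = n) := by
  obtain ⟨A, _, _, _, _, _, h3, _, h5, ⟨p, h6, h7⟩, h8⟩ := all_dim hn d hd
  have := H114.Lip.finite_derivation ℂ A
  let b := finBasisOfFinrankEq A (Derivation ℂ A A) h5
  obtain ⟨s, k, π, g, hπ, hg, hg', hgπ⟩ := exists_pres A
  choose q hq using fun i j => hπ (b i (π (X j)))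
  set Y := zeroLocus ℂ (RingHom.ker π) with hY
  have H := @point_main s k d A _ _ _ _ h3 π hπ g hg hg' hgπ b q hq Y hY
  have g1 : ∀ x ∈ Y, ∃ m : PrimeSpectrum A, m.asIdeal.IsMaximal ∧
      ∀ p, π p ∈ m.asIdeal ↔ eval x p = 0 := fun x hx => by
    let e := AlgHom.liftOfSurjective π hπ (aeval x) hx
    have h := RingHom.ker_isMaximal_of_surjective (e : A →+* ℂ) fun c => ⟨_, e.commutes c⟩
    exact ⟨⟨_, h.isPrime⟩, h, fun p =>
      iff_of_eq (congrArg (· = 0) (AlgHom.liftOfSurjective_apply π hπ (aeval x) hx p))⟩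
  choose F hF hF' using g1
  have g2 : ∀ m : PrimeSpectrum A, m.asIdeal.IsMaximal → ∃ x hx, F x hx = m := fun m hm => by
    choose x hx using fun i => N266.exists_point m.asIdeal (π (X i))
    have h : (Ideal.Quotient.mkₐ ℂ m.asIdeal).comp π = (Algebra.ofId ℂ _).comp (aeval x) :=
      MvPolynomial.algHom_ext fun i => by
        rw [AlgHom.comp_apply, AlgHom.comp_apply, aeval_X]
        exact Ideal.Quotient.eq.2 (hx i)
    have h1 : ∀ p, π p ∈ m.asIdeal ↔ eval x p = 0 := fun p =>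
      Ideal.Quotient.eq_zero_iff_mem.symm.trans ((iff_of_eq (congrArg (· = 0)
        (AlgHom.congr_fun h p))).trans (map_eq_zero (Algebra.ofId ℂ (A ⧸ m.asIdeal))))
    refine ⟨x, fun p hp => (h1 p).1 (RingHom.mem_ker.1 hp ▸ zero_mem _),
      PrimeSpectrum.ext (Ideal.ext fun a => ?_)⟩
    obtain ⟨p, rfl⟩ := hπ a
    exact (hF' _ _ p).trans (h1 p).symm
  have g3 := fun x hx => @H x _ (hF x hx) (hF' x hx)
  refine ⟨_, Y, fun i y j => eval y (q i j), ⟨_, RingHom.ker_isPrime π, hY⟩,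
    fun i y => analyticAt_pi_iff.2 fun j => ana_eval _ _,
    fun x hx => ⟨an_zero _ x, (g3 x hx).1⟩, ?_, fun e => h8 e ▸ Set.ncard_congr
      (fun x hx => F x hx.1) (fun x hx => ⟨hF x hx.1, mt (g3 x hx.1).2.2 hx.2⟩)
      (fun x y hx hy h => funext fun i => ?_) fun m hm => ?_⟩
  · obtain ⟨x, hx, rfl⟩ := g2 p h6
    exact ⟨x, hx, mt (g3 x hx).2.1 h7⟩
  · have h1 := (hF' x hx.1 (X i - C (y i))).1 (h ▸ (hF' y hy.1 _).2 (by simp))
    simpa [sub_eq_zero] using h1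
  · obtain ⟨x, hx, rfl⟩ := g2 m hm.1
    exact ⟨x, ⟨hx, mt (g3 x hx).2.1 hm.2⟩, rfl⟩

end Vale.Agent.N266X
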