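import Vale.Agent.N266X.Alg

/-! P266: normality of a flat local algebra over a normal affine variety. -/

namespace Vale.Agent.N266X

open IsLocalRing Vale.Agent.P266 Polynomial TensorProduct

theorem exists_seq {A : Type*} [CommRing A] [IsDomain A] [IsIntegrallyClosed A]
    [IsNoetherianRing A] (m : Ideal A) (hm : 2 ≤ m.height) :
    ∃ α ∈ m, ∃ β ∈ m, α ≠ 0 ∧ ∀ c, α ∣ β * c → α ∣ c := by
  obtain ⟨α, hα, h0⟩ := Submodule.exists_mem_ne_zero_of_ne_bot (p := m) fun e => by
    rw [e, Ideal.height_bot] at hm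
    exact absurd hm (by decide)
  obtain ⟨β, hβ, h1⟩ : ∃ β ∈ m, β ∉ ⋃ Q ∈ (Ideal.span {α}).minimalPrimes, (Q : Set A) := by
    refine Set.not_subset.1 fun h => ?_
    obtain ⟨Q, hQ, hle⟩ := (Ideal.subset_union_prime_finite (f := fun Q => Q)
      (Ideal.finite_minimalPrimes_of_isNoetherianRing A _) m m fun Q hQ _ _ => hQ.1.1).1 h
    exact absurd ((hm.trans (Ideal.height_mono hle)).trans
      (Ideal.height_le_one_of_isPrincipal_of_mem_minimalPrimes _ Q hQ)) (by decide)
  refine ⟨α, hα, β, hβ, h0, fun c hc => FirstIntegral.dvd_of_forall_height_one h0 fun Q _ hQ => ?_⟩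
  by_cases h : α ∈ Q
  · refine ⟨β, fun h2 => h1 (Set.mem_biUnion (Ideal.mem_minimalPrimes_of_height_le
      ((Ideal.span_singleton_le_iff_mem Q).2 h) ?_) h2), hc⟩
    rw [hQ]
    exact Ideal.one_le_height_span_singleton_of_mem_nonZeroDivisors
      (mem_nonZeroDivisors_of_ne_zero h0)
  · exact ⟨α, h, dvd_mul_right _ _⟩

theorem dvd_of_flat {A T : Type*} [CommRing A] [CommRing T] [Algebra A T] [Module.Flat A T]
    {α β : A} (h : ∀ c, α ∣ β * c → α ∣ c) (c : T)
    (hc : algebraMap A T α ∣ algebraMap A T β * c) : algebraMap A T α ∣ c := by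
  obtain ⟨d, hd⟩ := hc
  obtain ⟨k, a, y, h1, h2⟩ := Module.Flat.isTrivialRelation_of_sum_smul_eq_zero (R := A)
    (f := ![α, -β]) (x := ![d, c]) (by simp [Algebra.smul_def, hd])
  refine (show c = _ from h1 1) ▸ Finset.dvd_sum fun j _ => ?_
  rw [Algebra.smul_def]
  refine (_root_.map_dvd _ (h _ ⟨a 0 j, ?_⟩)).mul_right _
  have h3 := h2 j
  simp only [Fin.sum_univ_two, Matrix.cons_val_zero, Matrix.cons_val_one] at h3
  linear_combination -h3

theorem nzd_of_flat {A T : Type*} [CommRing A] [IsDomain A] [CommRing T] [Algebra A T]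
    [Module.Flat A T] {α : A} (h : α ≠ 0) (c : T) (hc : algebraMap A T α * c = 0) : c = 0 :=
  (Module.Flat.isSMulRegular_of_nonZeroDivisors
    (mem_nonZeroDivisors_of_ne_zero h)).right_eq_zero_of_smul (by rwa [Algebra.smul_def])

section

variable {A T : Type} [CommRing A] [IsDomain A] [CommRing T] [Algebra A T]

section

variable [IsIntegrallyClosed A] [IsNoetherianRing A] {h a : T} {P : Ideal T} [P.IsPrime]
  (hh : h ∈ nonZeroDivisors T) (hP : ∀ z, z ∈ P ↔ h ∣ z * a)

include hh hP

/-- a prime of depth one lies over a prime of height at most one -/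
theorem ht_le [Module.Flat A (Localization.AtPrime P)] : (P.under A).height ≤ 1 := by
  by_contra hc
  obtain ⟨α, hα, β, hβ, h0, h1⟩ := exists_seq (P.under A)
    (one_add_one_eq_two.ge.trans (Order.add_one_le_of_lt (not_le.1 hc)))
  obtain ⟨c, h2⟩ := (hP _).1 hα
  obtain ⟨d, h3⟩ := (hP _).1 hβ
  have h4 : algebraMap A T β * c = algebraMap A T α * d :=
    sub_eq_zero.1 (mem_nonZeroDivisors_iff_left.1 hh _ (by
      linear_combination algebraMap A T α * h3 - algebraMap A T β * h2))
  let f := algebraMap T (Localization.AtPrime P)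
  obtain ⟨e, he⟩ := dvd_of_flat h1 (f c) ⟨f d, by
    have h5 := congrArg f h4
    rwa [map_mul, map_mul, ← IsScalarTower.algebraMap_apply,
      ← IsScalarTower.algebraMap_apply] at h5⟩
  obtain ⟨s, hs, h5⟩ := (dvd_loc P).1 ⟨e, sub_eq_zero.1 (nzd_of_flat h0 (f a - f h * e) (by
    have h5 := congrArg f h2
    rw [map_mul, map_mul, he, ← IsScalarTower.algebraMap_apply] at h5
    linear_combination h5))⟩
  exact hs ((hP s).2 h5)

/-- primes above a prime of height one -/
theorem princ_one [Module.Flat A T] (h1 : (P.under A).height = 1)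
    (rad : ((P.under A).map (algebraMap A T)).IsRadical) :
    (maximalIdeal (Localization.AtPrime P)).IsPrincipal := by
  set p := P.under A
  have := FirstIntegral.isDVR_of_height_eq_one p h1 (Localization.AtPrime p)
  obtain ⟨t, ht, h2⟩ : ∃ t ∈ p, ∀ x ∈ p, ∃ s ∉ p, t ∣ s * x := by
    obtain ⟨π, hπ⟩ := (IsPrincipalIdealRing.principal (maximalIdeal (Localization.AtPrime p))).1
    obtain ⟨⟨t, u⟩, e⟩ := IsLocalization.surj p.primeCompl π
    have h2 : maximalIdeal (Localization.AtPrime p) = Ideal.span {algebraMap A _ t} := by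
      rw [← e, Ideal.span_singleton_mul_right_unit (IsLocalization.map_units _ u), hπ]
    refine ⟨t, (IsLocalization.AtPrime.to_map_mem_maximal_iff _ p t).1
      (h2.ge (Ideal.mem_span_singleton_self _)), fun x hx => (dvd_loc p).1 ?_⟩
    exact Ideal.mem_span_singleton.1
      (h2.le ((IsLocalization.AtPrime.to_map_mem_maximal_iff _ p x).2 hx))
  have h0 : t ≠ 0 := by
    rintro rfl
    refine Ideal.ne_bot_of_height_eq_one h1 (le_bot_iff.1 fun x hx => ?_)
    obtain ⟨s, hs, h3⟩ := h2 x hx
    exact (mul_eq_zero.1 (zero_dvd_iff.1 h3)).resolve_left fun e => hs (e ▸ p.zero_mem)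
  let f := algebraMap T (Localization.AtPrime P)
  have h3 : (p.map (algebraMap A T)).map f ≤ Ideal.span {f (algebraMap A T t)} := by
    rw [Ideal.map_le_iff_le_comap, Ideal.map_le_iff_le_comap]
    intro x hx
    obtain ⟨s, hs, h3⟩ := h2 x hx
    exact Ideal.mem_span_singleton.2 ((dvd_loc P).2 ⟨_, hs, map_mul (algebraMap A T) s x ▸
      _root_.map_dvd _ h3⟩)
  obtain ⟨c, hc⟩ := (hP _).1 ht
  have h4 : ∀ z ∈ P, algebraMap A T t ∣ c * z := fun z hz => by
    obtain ⟨d, hd⟩ := (hP z).1 hz
    exact ⟨d, sub_eq_zero.1 (mem_nonZeroDivisors_iff_left.1 hh _ (by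
      linear_combination algebraMap A T t * hd - z * hc))⟩
  have h5 : c ∉ P := fun h5 => by
    obtain ⟨s, hs, d, hd⟩ := (dvd_loc P).1 (Ideal.mem_span_singleton.1 (h3
      (Ideal.mem_map_of_mem f (rad ⟨2, Ideal.mem_of_dvd _ (sq c ▸ h4 c h5)
        (Ideal.mem_map_of_mem _ ht)⟩))))
    exact hs ((hP s).2 ⟨d, sub_eq_zero.1 (nzd_of_flat h0 _ (by
      linear_combination s * hc + h * hd))⟩)
  refine ⟨f (algebraMap A T t), le_antisymm ?_ ((Ideal.span_singleton_le_iff_mem _).2
    ((IsLocalization.AtPrime.to_map_mem_maximal_iff _ P _).2 ht))⟩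
  rw [← Localization.AtPrime.map_eq_maximalIdeal, Ideal.map_le_iff_le_comap]
  exact fun z hz => Ideal.mem_span_singleton.2 ((dvd_loc P).2 ⟨c, h5, h4 z hz⟩)

end

variable (S : Type) {O : Type} [CommRing S] [IsDomain S] [IsIntegrallyClosed S] [CharZero S]
  [CommRing O] [Algebra S A] [Algebra S O] [Algebra O T] [Algebra S T] [IsScalarTower S A T]
  [IsScalarTower S O T] [FaithfulSMul S A] [Algebra.IsIntegral S A]

include S

/-- primes above the zero ideal -/
theorem unram (gen : Algebra.adjoin O (Set.range (algebraMap A T)) = ⊤) (P : Ideal T) [P.IsPrime]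
    (h : P.under A = ⊥) : Algebra.IsUnramifiedAt O P := by
  let L := Localization.AtPrime P
  let D := KaehlerDifferential.D O L
  have h1 : ∀ a : A, D (algebraMap A L a) = 0 := fun a => by
    have ha := Algebra.IsIntegral.isIntegral (R := S) a
    have h2 : aeval a (derivative (minpoly S a)) ≠ 0 := fun e =>
      (minpoly.IsIntegrallyClosed.degree_le_of_ne_zero
        (fun e' => (minpoly.natDegree_pos ha).ne' (derivative_eq_zero.1 e'))
        e).not_gt (degree_derivative_lt (minpoly.ne_zero ha))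
    have h3 := D.map_aeval ((minpoly S a).map (algebraMap S O)) (algebraMap A L a)
    rw [derivative_map, aeval_map_algebraMap, aeval_map_algebraMap, aeval_algebraMap_apply,
      aeval_algebraMap_apply, minpoly.aeval, map_zero, map_zero,
      IsScalarTower.algebraMap_apply A T L] at h3
    refine (IsLocalization.map_units L (⟨_, fun e => h2 ?_⟩ : P.primeCompl)).smul_eq_zero.1 h3.symm
    exact Ideal.mem_bot.1 (h.le e)
  have h2 : ∀ t : T, D (algebraMap T L t) = 0 := fun t => by
    have ht : t ∈ Algebra.adjoin O (Set.range (algebraMap A T)) := gen ▸ Algebra.mem_top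
    induction ht using Algebra.adjoin_induction with
    | mem x hx =>
      obtain ⟨a, rfl⟩ := hx
      rw [← IsScalarTower.algebraMap_apply, h1]
    | algebraMap r => rw [← IsScalarTower.algebraMap_apply, D.map_algebraMap]
    | add x y _ _ hx hy => rw [map_add, map_add, hx, hy, add_zero]
    | mul x y _ _ hx hy => rw [map_mul, D.leibniz, hx, hy, smul_zero, smul_zero, add_zero]
  have h3 : ∀ x : L, D x = 0 := fun x => by
    obtain ⟨⟨t, s⟩, e⟩ := IsLocalization.surj P.primeCompl x
    have h4 := congrArg D e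
    rw [D.leibniz, h2, h2, smul_zero, zero_add] at h4
    exact (IsLocalization.map_units L s).smul_eq_zero.1 h4
  refine ⟨subsingleton_of_forall_eq 0 fun ω => ?_⟩
  have h4 : Submodule.span L (Set.range D) ≤ ⊥ :=
    Submodule.span_le.2 (Set.range_subset_iff.2 h3)
  rw [KaehlerDifferential.span_range_derivation] at h4
  exact h4 Submodule.mem_top

omit [IsIntegrallyClosed S] [CharZero S] [Algebra.IsIntegral S A] in
theorem flat_loc (φ : O ⊗[S] A →ₐ[O] T) (hφ : ∀ a, φ (1 ⊗ₜ a) = algebraMap A T a)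
    (h1 : Function.Surjective φ) (h2 : ∀ b, φ b = 0 → ∃ r, IsUnit (φ r) ∧ r * b = 0)
    (P : Ideal T) [P.IsPrime] (h : P.under A = ⊥) : Module.Flat O (Localization.AtPrime P) := by
  let L := Localization.AtPrime P
  let F := FractionRing S
  let K := FractionRing A
  let _ : Algebra F K := FractionRing.liftAlgebra S K
  have : Module.Flat S F := IsLocalization.flat F (nonZeroDivisors S)
  have : Module.Flat S K := Module.Flat.trans S F K
  have hu : ∀ y : nonZeroDivisors A, IsUnit (IsScalarTower.toAlgHom S A L y) := fun y =>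
    IsLocalization.map_units L (⟨algebraMap A T y, fun e =>
      nonZeroDivisors.ne_zero y.2 (Ideal.mem_bot.1 (h.le e))⟩ : P.primeCompl)
  let ψ : O ⊗[S] K →ₐ[O] L := Algebra.TensorProduct.lift (Algebra.ofId O L)
    (IsLocalization.liftAlgHom hu) fun _ _ => Commute.all _ _
  let ι : O ⊗[S] A →ₐ[O] O ⊗[S] K :=
    Algebra.TensorProduct.map (AlgHom.id O O) (IsScalarTower.toAlgHom S A K)
  have h3 : ψ.comp ι = (IsScalarTower.toAlgHom O T L).comp φ := by
    refine Algebra.TensorProduct.ext (Subsingleton.elim _ _) (AlgHom.ext fun a => ?_)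
    change ψ (1 ⊗ₜ algebraMap A K a) = algebraMap T L (φ (1 ⊗ₜ a))
    rw [hφ, Algebra.TensorProduct.lift_tmul, map_one, one_mul]
    exact IsLocalization.lift_eq hu a
  have h4 : ∀ b, ψ (ι b) = algebraMap T L (φ b) := AlgHom.congr_fun h3
  let _ := ι.toRingHom.toAlgebra
  have : IsScalarTower O (O ⊗[S] A) (O ⊗[S] K) :=
    IsScalarTower.of_algebraMap_eq fun x => (ι.commutes x).symm
  have := IsLocalization.tensorProduct_tensorProduct_right S O (nonZeroDivisors A) K
    (RingHom.ext fun _ => rfl)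
  let _ := ψ.toRingHom.toAlgebra
  have : IsScalarTower O (O ⊗[S] K) L :=
    IsScalarTower.of_algebraMap_eq fun x => (ψ.commutes x).symm
  have : IsLocalization ((IsUnit.submonoid L).comap ψ) L := by
    refine (isLocalization_iff _ _).2 ⟨fun y => y.2, fun z => ?_, fun {x y} e => ?_⟩
    · obtain ⟨⟨t, s⟩, e⟩ := IsLocalization.surj P.primeCompl z
      obtain ⟨b, rfl⟩ := h1 t
      obtain ⟨c, hc⟩ := h1 s
      have h5 := (h4 c).trans (congrArg _ hc)
      exact ⟨⟨ι b, ι c, show IsUnit (ψ (ι c)) from h5 ▸ IsLocalization.map_units L s⟩,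
        (congrArg (z * ·) h5).trans (e.trans (h4 b).symm)⟩
    · obtain ⟨⟨b, u⟩, hb⟩ := IsLocalization.surj ((nonZeroDivisors A).map
        (Algebra.TensorProduct.includeRight (R := S) (A := O))) (x - y)
      replace hb : (x - y) * ι u = ι b := hb
      have h5 : algebraMap T L (φ b) = 0 := by
        rw [← h4, ← hb, map_mul, map_sub, show ψ x = ψ y from e, sub_self, zero_mul]
      obtain ⟨s, hs⟩ := (IsLocalization.map_eq_zero_iff P.primeCompl L _).1 h5
      obtain ⟨c, hc⟩ := h1 s
      obtain ⟨r, hr, h6⟩ := h2 (c * b) (by rw [map_mul, hc, hs])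
      refine ⟨⟨ι r * ι c * ι u, show IsUnit (ψ _) from ?_⟩, ?_⟩
      · rw [map_mul, map_mul, h4, h4, hc]
        exact ((hr.map _).mul (IsLocalization.map_units L s)).mul
          ((IsLocalization.map_units (O ⊗[S] K) u).map ψ)
      · have h7 := congrArg ι h6
        rw [map_mul, map_mul, map_zero, ← hb] at h7
        linear_combination h7
  have := IsLocalization.flat L ((IsUnit.submonoid L).comap ψ)
  exact Module.Flat.trans O (O ⊗[S] K) L

omit [IsDomain A] [IsDomain S] [IsIntegrallyClosed S] [CharZero S] [FaithfulSMul S A]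
  [Algebra.IsIntegral S A] [Algebra S T] [IsScalarTower S A T] [IsScalarTower S O T] in
theorem ker_aux [IsNoetherianRing O] [Module.Finite S A] [IsLocalRing T] [Module.Flat A T]
    (m : Ideal A) [m.IsMaximal] (h1 : (maximalIdeal T).comap (algebraMap A T) = m)
    (h2 : m.map (algebraMap A T) = maximalIdeal T)
    (h3 : ∀ f : O, ∃ c : S, f - algebraMap S O c ∈ (m.under S).map (algebraMap S O))
    (φ : O ⊗[S] A →ₐ[O] T) (hφ : ∀ a, φ (1 ⊗ₜ a) = algebraMap A T a) (b : O ⊗[S] A)
    (hb : φ b = 0) : ∃ r, IsUnit (φ r) ∧ r * b = 0 := by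
  let B := O ⊗[S] A
  have : IsNoetherianRing B := Algebra.FiniteType.isNoetherianRing O B
  let _ : Algebra A B := Algebra.TensorProduct.rightAlgebra
  replace hφ : ∀ a, φ (algebraMap A B a) = algebraMap A T a := hφ
  have hφm : (m.map (algebraMap A B)).map φ = maximalIdeal T := by
    rw [← h2]
    exact (Ideal.map_map (algebraMap A B) (φ : B →+* T)).trans
      (congrArg (Ideal.map · m) (RingHom.ext hφ))
  have hB : ∀ b : B, ∃ a : A, b - algebraMap A B a ∈ m.map (algebraMap A B) := by
    intro b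
    induction b using TensorProduct.induction_on with
    | zero => exact ⟨0, by simp⟩
    | tmul f a =>
      obtain ⟨c, hc⟩ := h3 f
      refine ⟨algebraMap S A c * a, ?_⟩
      have h5 : (m.under S).map (algebraMap S O) ≤
          (m.map (algebraMap A B)).comap (algebraMap O B) := by
        refine Ideal.map_le_iff_le_comap.2 fun x hx => ?_
        rw [Ideal.mem_comap, Ideal.mem_comap, ← IsScalarTower.algebraMap_apply,
          IsScalarTower.algebraMap_apply S A B]
        exact Ideal.mem_map_of_mem _ hx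
      have h6 := Ideal.mul_mem_right (algebraMap A B a) _ (Ideal.mem_comap.1 (h5 hc))
      rw [map_sub, sub_mul, ← IsScalarTower.algebraMap_apply,
        IsScalarTower.algebraMap_apply S A B, ← map_mul] at h6
      convert h6 using 2
      exact (show (f ⊗ₜ[S] 1 : B) * 1 ⊗ₜ[S] a = _ by
        rw [Algebra.TensorProduct.tmul_mul_tmul, mul_one, one_mul]).symm
    | add x y hx hy =>
      obtain ⟨a, ha⟩ := hx
      obtain ⟨b, hb⟩ := hy
      exact ⟨a + b, by simpa [add_sub_add_comm] using add_mem ha hb⟩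
  have h5 : b ∈ (⨅ i : ℕ, m.map (algebraMap A B) ^ i • ⊤ : Submodule B B) := by
    refine Submodule.mem_iInf _ |>.2 fun i => ?_
    obtain ⟨a, ha⟩ := N266.approx' m hB i b
    have h6 := Ideal.mem_map_of_mem φ ha
    rw [Ideal.map_pow, hφm, map_sub, hb, hφ, zero_sub, neg_mem_iff, ← Ideal.mem_comap,
      N266.comap_pow m h1 h2] at h6
    have h7 := add_mem ha (Ideal.map_pow (algebraMap A B) m i ▸ Ideal.mem_map_of_mem _ h6)
    simpa using h7
  obtain ⟨r, hr⟩ := (Ideal.mem_iInf_smul_pow_eq_bot_iff _ _).1 h5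
  refine ⟨1 - r, ?_, by rw [sub_mul, one_mul, ← smul_eq_mul, hr, sub_self]⟩
  rw [map_sub, map_one]
  exact isUnit_one_sub_self_of_mem_nonunits _ (hφm.le (Ideal.mem_map_of_mem φ r.2))

omit [Algebra.IsIntegral S A] in
theorem normal_of [IsIntegrallyClosed A] [IsNoetherianRing A] [Module.Finite S A] [IsDomain O]
    [IsNoetherianRing O] [UniqueFactorizationMonoid O] [IsLocalRing T] [IsNoetherianRing T]
    [Module.Flat A T] (m : Ideal A) [m.IsMaximal]
    (h1 : (maximalIdeal T).comap (algebraMap A T) = m)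
    (h2 : m.map (algebraMap A T) = maximalIdeal T)
    (h3 : ∀ f : O, ∃ c : S, f - algebraMap S O c ∈ (m.under S).map (algebraMap S O))
    (rad : ∀ p : Ideal A, p.IsPrime → p ≤ m → (p.map (algebraMap A T)).IsRadical)
    (gen : Algebra.adjoin O (Set.range (algebraMap A T)) = ⊤) :
    IsDomain T ∧ IsIntegrallyClosed T := by
  have : IsReduced T := Ideal.isRadical_bot_iff.1 (by
    simpa using rad ⊥ Ideal.isPrime_bot bot_le)
  let φ : O ⊗[S] A →ₐ[O] T := Algebra.TensorProduct.lift (Algebra.ofId O T)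
    (IsScalarTower.toAlgHom S A T) fun _ _ => Commute.all _ _
  have hφ : ∀ a, φ (1 ⊗ₜ a) = algebraMap A T a := fun a =>
    (Algebra.TensorProduct.lift_tmul _ _ _ 1 a).trans (by simp)
  have hs : Function.Surjective φ := (AlgHom.range_eq_top φ).1 (top_le_iff.1
    (gen.ge.trans (Algebra.adjoin_le (Set.range_subset_iff.2 fun a => ⟨_, hφ a⟩))))
  have : Algebra.FiniteType O T := Algebra.FiniteType.of_surjective φ hs
  refine serre fun h a P hP hh H => ?_
  by_cases h0 : P.under A = ⊥
  · let _ := Localization.AtPrime.algebraOfLiesOver (P.under O) P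
    rw [← ((Algebra.isUnramifiedAt_iff_map_eq O (P.under O) P).1 (unram S gen P h0)).2]
    refine Submodule.IsPrincipal.map_ringHom _ ?_
    have := flat_loc S φ hφ hs (ker_aux S m h1 h2 h3 φ hφ) P h0
    rcases (ht_le (A := O) hh H).eq_or_lt with h5 | h5
    · exact UniqueFactorizationMonoid.isPrincipal_of_height_eq_one h5
    · rw [Ideal.height_eq_zero_iff_eq_bot.1 (Order.lt_one_iff.1 h5)]
      exact bot_isPrincipal
  · exact princ_one hh H (le_antisymm (ht_le hh H)
      (Order.one_le_iff_ne_zero.2 (mt Ideal.height_eq_zero_iff_eq_bot.1 h0)))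
      (rad _ inferInstance (h1 ▸ Ideal.comap_mono (le_maximalIdeal hP.ne_top)))

end

end Vale.Agent.N266X
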