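import Vale.Agent.N266X.An
import Vale.Agent.N266X.Defs
import Vale.Agent.P271.H879.RegDom

/-! P266: an analytic set is a submanifold at a point if and only if its local ring is regular. -/

open Filter Topology IsLocalRing Module
open Vale.Agent.P298.H941 Vale.Agent.P282A71

noncomputable section

namespace Vale.Agent.N266X

variable {N : ℕ}

/-- the differential at the origin -/
def dz (N : ℕ) : ON N →ₗ[ℂ] Fin N → ℂ :=
  LinearMap.pi fun i => (ev0 _).toLinearMap ∘ₗ (pd i : ON N →ₗ[ℂ] ON N)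

theorem dz_apply (a : ON N) (i : Fin N) : dz N a i = ev0 _ (pd i a) := rfl

theorem dz_zc (j : Fin N) : dz N (zc j) = Pi.single j 1 := funext fun i => by
  rw [dz_apply, pd_zc, Pi.single_apply, Pi.single_apply, apply_ite (ev0 _), map_one, map_zero]

theorem dz_mul (a : ON N) {t : ON N} (ht : t ∈ maximalIdeal (ON N)) :
    dz N (a * t) = ev0 _ a • dz N t := funext fun i => by
  rw [dz_apply, Derivation.leibniz, smul_eq_mul, smul_eq_mul, map_add, map_mul, map_mul,
    (P298.H941.mem_maximalIdeal _).1 ht, zero_mul, add_zero]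
  rfl

theorem mem_sq {t : ON N} (ht : t ∈ maximalIdeal (ON N)) (h : dz N t = 0) :
    t ∈ maximalIdeal (ON N) * maximalIdeal (ON N) := by
  obtain ⟨a, rfl⟩ := Ideal.mem_span_range_iff_exists_fun.1 (P282A14.max_eq N ▸ ht)
  refine sum_mem fun i _ => Ideal.mul_mem_mul ((P298.H941.mem_maximalIdeal _).2 ?_) (zc_mem i)
  have h1 := congrFun h i
  simpa [map_sum, dz_mul _ (zc_mem _), dz_zc, Pi.single_apply] using h1

theorem surj_iff {k : ℕ} {F : (Fin N → ℂ) → Fin k → ℂ} (hF : AnalyticAt ℂ F 0) :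
    Function.Surjective (fderiv ℂ F 0) ↔
      LinearIndependent ℂ fun j => dz N (mk _ (analyticAt_pi_iff.1 hF j)) := by
  let M : Matrix (Fin k) (Fin N) ℂ := fun j => dz N (mk _ (analyticAt_pi_iff.1 hF j))
  have h : (fderiv ℂ F 0 : (Fin N → ℂ) →ₗ[ℂ] Fin k → ℂ) = M.mulVecLin := by
    refine (Pi.basisFun ℂ (Fin N)).ext fun i => funext fun j => ?_
    rw [Pi.basisFun_apply, Matrix.mulVecLin_apply, Matrix.mulVec_single_one]
    change _ = ev0 _ (pd i (mk _ _))
    rw [pd_mk, ev0_mk, fderiv_apply hF.differentiableAt]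
    rfl
  change Function.Surjective (fderiv ℂ F 0 : (Fin N → ℂ) →ₗ[ℂ] Fin k → ℂ) ↔ LinearIndependent ℂ M.row
  rw [h, linearIndependent_iff_card_eq_finrank_span, Set.finrank, ← M.rank_eq_finrank_span_row,
    ← LinearMap.range_eq_top, Matrix.rank, ← finrank_fintype_fun_eq_card ℂ]
  exact ⟨fun e => by rw [e, finrank_top], fun e => Submodule.eq_top_of_finrank_eq e.symm⟩

variable {T : Type} [CommRing T] [IsLocalRing T] {ρ : ON N →+* T} (hρ : Function.Surjective ρ)

include hρ

theorem emb_le {k : ℕ} {f : Fin k → ON N} (hf : ∀ j, ρ (f j) = 0)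
    (hl : LinearIndependent ℂ fun j => dz N (f j)) : (maximalIdeal T).spanFinrank + k ≤ N := by
  have : IsNoetherianRing T := isNoetherianRing_of_surjective _ _ ρ hρ
  have hm := map_maximalIdeal_of_surjective ρ hρ
  obtain ⟨W, hW⟩ := (Submodule.span ℂ (Set.range fun j => dz N (f j))).exists_isCompl
  have h1 := Submodule.finrank_add_eq_of_isCompl hW
  rw [finrank_span_eq_card hl, Fintype.card_fin, finrank_fin_fun] at h1
  let b := finBasis ℂ W
  let L : Fin (finrank ℂ W) → ON N := fun i => ∑ j, (b i).1 j • zc j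
  have hL : ∀ i, L i ∈ maximalIdeal (ON N) := fun i =>
    sum_mem fun j _ => Submodule.smul_of_tower_mem _ _ (zc_mem j)
  have hL' : ∀ i, dz N (L i) = b i := fun i => by
    simp only [L, map_sum, map_smul, dz_zc]
    exact (pi_eq_sum_univ' _).symm
  have hfm : ∀ j, f j ∈ maximalIdeal (ON N) := fun j hu => by
    have h2 := hu.map ρ
    rw [hf] at h2
    exact not_isUnit_zero h2
  have h2 : maximalIdeal T = Ideal.span (Set.range fun i => ρ (L i)) := by
    refine le_antisymm (Submodule.le_of_le_smul_of_le_jacobson_bot (IsNoetherian.noetherian _)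
      (maximalIdeal_le_jacobson _) ?_) (Ideal.span_le.2 (Set.range_subset_iff.2 fun i =>
        hm ▸ Ideal.mem_map_of_mem ρ (hL i)))
    refine hm.ge.trans (Ideal.map_le_iff_le_comap.2 fun t ht => ?_)
    obtain ⟨u, hu, w, hw, e⟩ :=
      Submodule.mem_sup.1 (hW.sup_eq_top.ge (Submodule.mem_top (x := dz N t)))
    obtain ⟨c, rfl⟩ := (Submodule.mem_span_range_iff_exists_fun ℂ).1 hu
    have h3 := congrArg Subtype.val (b.sum_repr ⟨w, hw⟩)
    have h4 := Ideal.mem_map_of_mem ρ (mem_sq
      (t := t - ∑ j, c j • f j - ∑ i, b.repr ⟨w, hw⟩ i • L i)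
      (sub_mem (sub_mem ht (sum_mem fun j _ => Submodule.smul_of_tower_mem _ _ (hfm j)))
        (sum_mem fun j _ => Submodule.smul_of_tower_mem _ _ (hL j))) (by
      simp only [map_sub, map_sum, map_smul, hL', ← e]
      simp only [Submodule.coe_sum, Submodule.coe_smul] at h3
      rw [h3, add_sub_cancel_left, sub_self]))
    simp only [Ideal.map_mul, hm, map_sub, map_sum, Algebra.smul_def, map_mul, hf, mul_zero,
      Finset.sum_const_zero, sub_zero] at h4
    rw [Ideal.mem_comap,
      ← add_sub_cancel (∑ i, ρ (algebraMap ℂ _ (b.repr ⟨w, hw⟩ i)) * ρ (L i)) (ρ t)]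
    exact Submodule.add_mem_sup (sum_mem fun i _ =>
      Ideal.mul_mem_left _ _ (Ideal.subset_span ⟨i, rfl⟩)) h4
  rw [h2, add_comm]
  refine (Nat.add_le_add_left ((Submodule.spanFinrank_span_le_ncard_of_finite
    (Set.finite_range _)).trans ?_) _).trans h1.le
  simpa using Set.ncard_image_le (s := Set.univ) (f := fun i => ρ (L i))

theorem emb_ge : ∃ (k : ℕ) (f : Fin k → ON N), (∀ j, ρ (f j) = 0) ∧
    (LinearIndependent ℂ fun j => dz N (f j)) ∧ N ≤ (maximalIdeal T).spanFinrank + k := by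
  classical
  have : IsNoetherianRing T := isNoetherianRing_of_surjective _ _ ρ hρ
  have hm := map_maximalIdeal_of_surjective ρ hρ
  let W := ((RingHom.ker ρ).restrictScalars ℂ).map (dz N)
  let b := finBasis ℂ W
  choose f hf hb using fun j => (b j).2
  obtain ⟨s, hs, e⟩ := (IsNoetherian.noetherian
    (maximalIdeal T)).exists_span_finset_card_eq_spanFinrank
  choose t ht ht' using fun x : s => (Ideal.mem_map_iff_of_surjective ρ hρ).1
    (hm.ge (e.le (Submodule.subset_span x.2)))
  refine ⟨_, f, hf, ?_, ?_⟩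
  · simp only [hb]
    exact b.linearIndependent.map' W.subtype W.ker_subtype
  have h1 : ⊤ ≤ Submodule.span ℂ (Set.range fun x => dz N (t x)) ⊔ W := by
    rw [← (Pi.basisFun ℂ (Fin N)).span_eq, Submodule.span_le]
    rintro _ ⟨j, rfl⟩
    obtain ⟨c, hc⟩ := (Submodule.mem_span_finset' (R := T)).1
      (e.ge (hm.le (Ideal.mem_map_of_mem ρ (zc_mem j))))
    choose a ha using fun x => hρ (c x)
    rw [Pi.basisFun_apply, ← dz_zc, ← add_sub_cancel (∑ x, a x * t x) (zc j), map_add]
    refine Submodule.add_mem_sup ?_ (Submodule.mem_map_of_mem (RingHom.mem_ker.2 ?_))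
    · rw [map_sum]
      exact sum_mem fun x _ => dz_mul _ (ht x) ▸
        Submodule.smul_mem _ _ (Submodule.subset_span ⟨x, rfl⟩)
    · simp only [map_sub, map_sum, map_mul, ha, ht', ← hc, smul_eq_mul, sub_self]
  have h2 := (Submodule.finrank_mono h1).trans (Submodule.finrank_add_le_finrank_add_finrank _ _)
  rw [finrank_top, finrank_fin_fun] at h2
  refine h2.trans (Nat.add_le_add_right ((finrank_range_le_card _).trans ?_) _)
  rw [Fintype.card_coe, hs]

theorem reg_of {k : ℕ} {f : Fin k → ON N} (hf : ∀ j, ρ (f j) = 0)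
    (hl : LinearIndependent ℂ fun j => dz N (f j))
    (h : RingHom.ker ρ ≤ (Ideal.span (Set.range f)).radical) : IsRegularLocalRing T := by
  have : IsNoetherianRing T := isNoetherianRing_of_surjective _ _ ρ hρ
  have hle : Ideal.span (Set.range f) ≤ RingHom.ker ρ :=
    Ideal.span_le.2 (Set.range_subset_iff.2 hf)
  have h1 := ringKrullDim_le_ringKrullDim_quotient_add_spanFinrank (Ideal.span (Set.range f))
    (ringJacobson_eq_maximalIdeal (ON N) ▸ hle.trans (le_maximalIdeal (RingHom.ker_ne_top ρ)))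
  have h2 : ringKrullDim (ON N ⧸ Ideal.span (Set.range f)) = ringKrullDim T := by
    rw [← ringKrullDim_eq_of_ringEquiv (RingHom.quotientKerEquivOfSurjective hρ),
      ringKrullDim_quotient, ringKrullDim_quotient, ← PrimeSpectrum.zeroLocus_radical,
      ← PrimeSpectrum.zeroLocus_radical (RingHom.ker ρ),
      le_antisymm (Ideal.radical_mono hle) (Ideal.radical_le_radical_iff.2 h)]
  have h3 : (Ideal.span (Set.range f)).spanFinrank ≤ k :=
    (Submodule.spanFinrank_span_le_ncard_of_finite (Set.finite_range _)).trans (by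
      simpa using Set.ncard_image_le (s := Set.univ) (f := f))
  have h4 := emb_le hρ hf hl
  obtain ⟨d, hd⟩ := ENat.ne_top_iff_exists.1 (Ideal.height_ne_top_of_isPrime (I := maximalIdeal T))
  refine IsRegularLocalRing.of_spanFinrank_maximalIdeal_le _ ?_
  rw [dim_ON, h2, ← maximalIdeal_height_eq_ringKrullDim, ← hd] at h1
  rw [← maximalIdeal_height_eq_ringKrullDim, ← hd]
  norm_cast at h1 ⊢
  omega

theorem exists_gen (h : IsRegularLocalRing T) : ∃ (k : ℕ) (f : Fin k → ON N),
    (LinearIndependent ℂ fun j => dz N (f j)) ∧ RingHom.ker ρ = Ideal.span (Set.range f) := by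
  obtain ⟨k, f, hf, hl, h1⟩ := emb_ge hρ
  set J := Ideal.span (Set.range f)
  have hle : J ≤ RingHom.ker ρ := Ideal.span_le.2 (Set.range_subset_iff.2 hf)
  have : Nontrivial (ON N ⧸ J) :=
    Ideal.Quotient.nontrivial_iff.2 (ne_top_of_le_ne_top (RingHom.ker_ne_top ρ) hle)
  have : IsLocalRing (ON N ⧸ J) := IsLocalRing.of_surjective' _ Ideal.Quotient.mk_surjective
  have hf' : ∀ j, Ideal.Quotient.mk J (f j) = 0 := fun j =>
    Ideal.Quotient.eq_zero_iff_mem.2 (Ideal.subset_span ⟨j, rfl⟩)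
  have h2 := reg_of Ideal.Quotient.mk_surjective hf' hl (Ideal.mk_ker.le.trans Ideal.le_radical)
  have h3 := emb_le Ideal.Quotient.mk_surjective hf' hl
  have := P271.H879.Reg.isDomain (ON N ⧸ J)
  refine ⟨k, f, hl, le_antisymm (fun t ht => not_not.1 fun hn => ?_) hle⟩
  have h4 := ringKrullDim_succ_le_of_surjective (Ideal.Quotient.lift J ρ hle)
    (Ideal.Quotient.lift_surjective_of_surjective _ _ hρ)
    (mem_nonZeroDivisors_of_ne_zero (mt Ideal.Quotient.eq_zero_iff_mem.1 hn)) ht
  rw [← h.spanFinrank_maximalIdeal, ← h2.spanFinrank_maximalIdeal] at h4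
  norm_cast at h4
  omega

theorem smooth_iff {Y : Set (Fin N → ℂ)} (hY : AnalyticSetAt Y 0)
    (hJ : ∀ f hf, ρ (mk f hf) = 0 ↔ ∀ᶠ y in 𝓝[Y] 0, f y = 0) :
    SubmanifoldAt Y 0 ↔ IsRegularLocalRing T := by
  simp only [eventually_nhdsWithin_iff] at hJ
  constructor
  · rintro ⟨k, F, hF, h1, h2⟩
    have hF' := analyticAt_pi_iff.1 hF
    refine reg_of hρ (fun j => (hJ _ _).2 (h2.mono fun y hy h => congrFun (hy.1 h) j))
      ((surj_iff hF).1 h1) fun t ht => ?_
    obtain ⟨g, hg, rfl⟩ := exists_rep t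
    obtain ⟨n, hn⟩ := P277Z.Oka.nul_all _ (Fin k) 0 (fun j y => F y j) hF' g hg (by
      filter_upwards [(hJ g hg).1 ht, h2] with y h3 h4 h5 using h3 (h4.2 (funext h5)))
    rw [P277Z.Oka.in_iff hF' (hg.fun_pow n), P277Z.Oka.gm_pow hg, P277Z.Oka.gm_zero_eq hg,
      P277Z.Oka.idl] at hn
    simp only [fun j => P277Z.Oka.gm_zero_eq (hF' j)] at hn
    exact ⟨n, hn⟩
  · intro h
    obtain ⟨k, f, hl, e⟩ := exists_gen hρ h
    choose F hF hf using fun j => exists_rep (f j)
    obtain rfl : f = fun j => mk (F j) (hF j) := funext fun j => (hf j).symm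
    obtain ⟨l, G, hG, h1⟩ := hY
    have hF' : AnalyticAt ℂ (fun y j => F j y) 0 := analyticAt_pi_iff.2 hF
    refine ⟨k, _, hF', (surj_iff hF').2 hl, ?_⟩
    choose a _ ha using fun i => (mk_mem_span hF (analyticAt_pi_iff.1 hG i)).1
      (e.le ((hJ _ _).2 (h1.mono fun y hy h => congrFun (hy.1 h) i)))
    filter_upwards [h1, eventually_all.2 ha, eventually_all.2 fun j =>
      (hJ _ (hF j)).1 (e.ge (Ideal.subset_span ⟨j, rfl⟩))] with y h2 h3 h4
    refine ⟨fun h => funext fun j => h4 j h, fun h => h2.2 (funext fun i => (h3 i).trans ?_)⟩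
    exact Finset.sum_eq_zero fun j _ => mul_eq_zero_of_right _ (congrFun h j)

end Vale.Agent.N266X
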