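import Vale.Agent.N266X.Loc

/-! P266: translation of germs to the origin. -/

open Filter Topology IsLocalRing Module
open Vale.Agent.P298.H941 Vale.Agent.P282A71

noncomputable section

namespace Vale.Agent.N266X

variable {N : ℕ} {Y : Set (Fin N → ℂ)} {x : Fin N → ℂ}

theorem ev_tr {p : (Fin N → ℂ) → Prop} : (∀ᶠ y in 𝓝 x, p y) ↔ ∀ᶠ z in 𝓝 0, p (x + z) := by
  rw [← map_add_left_nhds_zero x, eventually_map]

theorem ana_tr {E : Type} [NormedAddCommGroup E] [NormedSpace ℂ E] {f : (Fin N → ℂ) → E}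
    (hf : AnalyticAt ℂ f x) : AnalyticAt ℂ (fun z => f (x + z)) 0 :=
  hf.comp_of_eq (analyticAt_const.add analyticAt_id) (add_zero x)

theorem ana_tr' {E : Type} [NormedAddCommGroup E] [NormedSpace ℂ E] {f : (Fin N → ℂ) → E}
    (hf : AnalyticAt ℂ f 0) : AnalyticAt ℂ (fun y => f (y - x)) x :=
  hf.comp_of_eq (analyticAt_id.sub analyticAt_const) (sub_self x)

theorem mk_zero_iff (f : Hol x) : germ Y f = 0 ↔
    ∀ᶠ z in 𝓝[(x + ·) ⁻¹' Y] 0, f.1 (x + z) = 0 :=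
  Ideal.Quotient.eq_zero_iff_mem.trans (eventually_nhdsWithin_iff.trans
    (ev_tr.trans eventually_nhdsWithin_iff.symm))

/-- translation of functions -/
def tr (x : Fin N → ℂ) : An (Fin N → ℂ) →ₐ[ℂ] Hol x where
  toFun f := ⟨fun y => f.1 (y - x), ana_tr' f.2⟩
  map_one' := rfl
  map_mul' _ _ := rfl
  map_zero' := rfl
  map_add' _ _ := rfl
  commutes' _ := rfl

theorem tr_zero_iff (f : An (Fin N → ℂ)) : germ Y (tr x f) = 0 ↔
    ∀ᶠ z in 𝓝[(x + ·) ⁻¹' Y] 0, f.1 z = 0 :=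
  (mk_zero_iff _).trans (eventually_congr (.of_forall fun z => by
    change f.1 (x + z - x) = 0 ↔ _
    rw [add_sub_cancel_left]))

/-- restriction of translated germs to `Y` -/
def rho (Y : Set (Fin N → ℂ)) (x : Fin N → ℂ) : ON N →ₐ[ℂ] Loc Y x :=
  Ideal.Quotient.liftₐ (nu _) ((Ideal.Quotient.mkₐ ℂ (van Y x)).comp (tr x)) fun a ha =>
    (tr_zero_iff a).2 (Eventually.filter_mono nhdsWithin_le_nhds ha)

theorem rho_zero_iff (f : (Fin N → ℂ) → ℂ) (hf : AnalyticAt ℂ f 0) :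
    rho Y x (mk f hf) = 0 ↔ ∀ᶠ z in 𝓝[(x + ·) ⁻¹' Y] 0, f z = 0 := tr_zero_iff ⟨f, hf⟩

theorem rho_mk (f : Hol x) :
    rho Y x (mk (fun z => f.1 (x + z)) (ana_tr f.2)) = germ Y f :=
  congrArg (Ideal.Quotient.mk (van Y x))
    (Subtype.ext (funext fun y => congrArg f.1 (add_sub_cancel x y)))

theorem rho_surj : Function.Surjective (rho Y x) := fun a => by
  obtain ⟨f, rfl⟩ := Ideal.Quotient.mk_surjective a
  exact ⟨_, rho_mk f⟩

theorem loc_local (hx : x ∈ Y) : IsLocalRing (Loc Y x) := by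
  have : Nontrivial (Loc Y x) := Ideal.Quotient.nontrivial_iff.2 ((Ideal.ne_top_iff_one _).2
    fun h => one_ne_zero ((show ∀ᶠ _ in 𝓝[Y] x, (1 : ℂ) = 0 from h).self_of_nhdsWithin hx))
  exact IsLocalRing.of_surjective' (rho Y x : ON N →+* Loc Y x) rho_surj

theorem sub_tr : SubmanifoldAt Y x ↔ SubmanifoldAt ((x + ·) ⁻¹' Y) 0 := by
  constructor
  · rintro ⟨k, F, h1, h2, h3⟩
    exact ⟨k, _, ana_tr h1, by rwa [fderiv_comp_add_left, add_zero], ev_tr.1 h3⟩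
  · rintro ⟨k, F, h1, h2, h3⟩
    exact ⟨k, _, ana_tr' h1, by rwa [fderiv_comp_sub, sub_self], ev_tr.2 (by simpa using h3)⟩

theorem an_tr (hY : AnalyticSetAt Y x) : AnalyticSetAt ((x + ·) ⁻¹' Y) 0 := by
  obtain ⟨k, F, h1, h2⟩ := hY
  exact ⟨k, _, ana_tr h1, ev_tr.1 h2⟩

theorem smooth_iff' (hx : x ∈ Y) (hY : AnalyticSetAt Y x) :
    SubmanifoldAt Y x ↔ IsRegularLocalRing (Loc Y x) :=
  have := loc_local hx
  sub_tr.trans (smooth_iff (ρ := (rho Y x).toRingHom) rho_surj (an_tr hY) rho_zero_iff)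

end Vale.Agent.N266X
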